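import Vale.Agent.P231.S2I.Hopf
import Vale.Agent.P231.WF.Deg

/-!
# P231, S2-I (I7): solid angle forms

Rank one perturbations of a pull back; the solid angle forms of `ℝ³` and `ℝ⁴`.
-/

set_option linter.unusedSectionVars false
set_option linter.unusedVariables false

open MeasureTheory Set Module Filter Topology
open scoped ContDiff

namespace Vale.Agent.P231.H649

open Fm S2I
open Q (dR Cut)

section Rank

variable {V F : Type*} [NormedAddCommGroup V] [NormedSpace ℝ V] [NormedAddCommGroup F]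
  [NormedSpace ℝ F] [FiniteDimensional ℝ V] [FiniteDimensional ℝ F]

/-- pull back by a rank one perturbation -/
theorem pull_add_rank (A : V →L[ℝ] F) (ρ : V →L[ℝ] ℝ) (y : F) (w : Lam F) :
    pull (A + ρ.smulRight y) w = pull A w + dx ρ * pull A (iprod y w) := by
  induction w using Lam.ind with
  | h1 r => simp [iprod_algebraMap, AlgHom.commutes]
  | h2 a =>
    rw [pull_dx, pull_dx, iprod_dx, AlgHom.commutes, ← Algebra.commutes, ← Algebra.smul_def,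
      ← map_smul, ← map_add]
    congr 1
    ext v
    simp [mul_comm]
  | h3 a b ha hb =>
    rw [map_mul, ha, hb, iprod_mul, map_mul, map_add, map_mul, map_mul, pull_inv]
    have h1 : pull A a * dx ρ = dx ρ * inv (pull A a) := by
      rw [dx_mul, Fm.inv_inv]
    have h2 : dx ρ * pull A (iprod y a) * (dx ρ * pull A (iprod y b)) = 0 := by
      rw [dx_mul, mul_assoc, ← mul_assoc (dx ρ) (dx ρ), dx_mul_self, zero_mul, mul_zero]
    rw [add_mul, mul_add, mul_add, h2, ← mul_assoc (pull A a) (dx ρ), h1]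
    noncomm_ring
  | h4 a b ha hb =>
    rw [map_add, ha, hb, map_add, map_add, map_add]
    noncomm_ring

/-- scaling -/
theorem pull_smul_hom (r : ℝ) (A : V →L[ℝ] F) {k : ℕ} {w : Lam F} (hw : w ∈ WF.hom F k) :
    pull (r • A) w = r ^ k • pull A w := by
  induction k generalizing w with
  | zero =>
    obtain ⟨c, rfl⟩ := WF.mem_hom_zero.1 hw
    simp [AlgHom.commutes]
  | succ k ih =>
    refine WF.hom_succ_induction (C := fun w => pull (r • A) w = r ^ (k + 1) • pull A w) ?_ ?_ ?_ hw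
    · simp
    · intro a w hw
      rw [map_mul, map_mul, ih hw]
      have h1 : pull (r • A) (dxl a) = r • pull A (dxl a) := by
        rw [pull_dxl, pull_dxl, ← map_smul]
        congr 1
        ext v
        simp
      rw [h1, smul_mul_smul_comm, pow_succ', mul_comm]
    · intro v w hv hw
      rw [map_add, hv, hw, map_add, smul_add]

/-- pull back by `r • A + ρ ⊗ y` of a form killed by `y` -/
theorem pull_rad_hom (r : ℝ) (A : V →L[ℝ] F) (ρ : V →L[ℝ] ℝ) {y : F} {k : ℕ} {w : Lam F}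
    (hw : w ∈ WF.hom F k) (hy : iprod y w = 0) :
    pull (r • A + ρ.smulRight y) w = r ^ k • pull A w := by
  rw [pull_add_rank, hy, map_zero, mul_zero, add_zero, pull_smul_hom r A hw]

end Rank

/-! ### the volume forms -/

/-- the volume form of `ℝ³` -/
noncomputable def W3 : Lam (Fin 3 → ℝ) := dx (pj 0) * (dx (pj 1) * dx (pj 2))

/-- the coordinates of `ℝ⁴` -/
noncomputable def qj (i : Fin 4) : (Fin 4 → ℝ) →L[ℝ] ℝ := ContinuousLinearMap.proj i

/-- the last three coordinates of `ℝ⁴` -/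
noncomputable def W4' : Lam (Fin 4 → ℝ) := dx (qj 1) * (dx (qj 2) * dx (qj 3))

/-- the volume form of `ℝ⁴` -/
noncomputable def W4 : Lam (Fin 4 → ℝ) := dx (qj 0) * W4'

theorem dx_mem {E : Type*} [NormedAddCommGroup E] [NormedSpace ℝ E] [FiniteDimensional ℝ E]
    (a : E →L[ℝ] ℝ) : dx a ∈ WF.hom E 1 := WF.dxl_mem_hom a

theorem W3_mem : W3 ∈ WF.hom (Fin 3 → ℝ) 3 :=
  WF.mul_mem_hom (j := 1) (k := 2) (dx_mem _) (WF.mul_mem_hom (j := 1) (k := 1) (dx_mem _) (dx_mem _))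

theorem W4'_mem : W4' ∈ WF.hom (Fin 4 → ℝ) 3 :=
  WF.mul_mem_hom (j := 1) (k := 2) (dx_mem _) (WF.mul_mem_hom (j := 1) (k := 1) (dx_mem _) (dx_mem _))

theorem W4_mem : W4 ∈ WF.hom (Fin 4 → ℝ) 4 :=
  WF.mul_mem_hom (j := 1) (k := 3) (dx_mem _) W4'_mem

theorem vol2_eq (y : Fin 3 → ℝ) : vol2 y = iprod y W3 := by
  rw [W3, iprod_dx_mul, iprod_dx_mul, iprod_dx]
  have h1 : dx (pj 0) * (y 1 • dx (pj 2) - dx (pj 1) * algebraMap ℝ (Lam (Fin 3 → ℝ)) (y 2)) =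
      y 1 • (dx (pj 0) * dx (pj 2)) - y 2 • (dx (pj 0) * dx (pj 1)) := by
    rw [mul_sub, mul_smul_comm, ← Algebra.commutes, ← Algebra.smul_def, mul_smul_comm]
  change vol2 y = y 0 • (dx (pj 1) * dx (pj 2)) -
    dx (pj 0) * (y 1 • dx (pj 2) - dx (pj 1) * algebraMap ℝ (Lam (Fin 3 → ℝ)) (y 2))
  rw [h1, vol2, dx_anticomm (pj 2) (pj 0)]
  module

/-- the normalisation on `ℝ³` -/
noncomputable def N3 (y : Fin 3 → ℝ) : Fin 3 → ℝ := (√(n3 y))⁻¹ • y


theorem hasFDerivAt_N3 {y : Fin 3 → ℝ} (hy : y ≠ 0) : ∃ ρ : (Fin 3 → ℝ) →L[ℝ] ℝ,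
    HasFDerivAt N3 ((√(n3 y))⁻¹ • ContinuousLinearMap.id ℝ (Fin 3 → ℝ) + ρ.smulRight y) y := by
  have h1 : 0 < n3 y := n3_pos hy
  have h2 : DifferentiableAt ℝ n3 y := by
    unfold n3
    fun_prop
  have h3 : DifferentiableAt ℝ (fun y => (√(n3 y))⁻¹) y :=
    ((h2.sqrt h1.ne').inv (Real.sqrt_pos.2 h1).ne')
  refine ⟨fderiv ℝ (fun y => (√(n3 y))⁻¹) y, ?_⟩
  have h4 := h3.hasFDerivAt.smul (hasFDerivAt_id y)
  exact h4

theorem n3_N3 {y : Fin 3 → ℝ} (hy : y ≠ 0) : n3 (N3 y) = 1 := by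
  have h1 : 0 < n3 y := n3_pos hy
  have h2 : √(n3 y) ^ 2 = n3 y := Real.sq_sqrt h1.le
  have h3 : √(n3 y) ≠ 0 := (Real.sqrt_pos.2 h1).ne'
  have h4 : n3 (N3 y) = (√(n3 y) ^ 2)⁻¹ * n3 y := by
    simp only [n3, N3, Pi.smul_apply, smul_eq_mul]
    field_simp
  rw [h4, h2, inv_mul_cancel₀ h1.ne']

/-- the solid angle form of `ℝ³` -/
theorem pull_N3 {y : Fin 3 → ℝ} (hy : y ≠ 0) :
    pull (fderiv ℝ N3 y) (iprod (N3 y) W3) = (4 * Real.pi) • om y := by
  obtain ⟨ρ, hρ⟩ := hasFDerivAt_N3 hy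
  have h1 : 0 < n3 y := n3_pos hy
  have h3 : √(n3 y) ≠ 0 := (Real.sqrt_pos.2 h1).ne'
  rw [hρ.fderiv, N3, iprod_smul, map_smul,
    pull_rad_hom (k := 2) _ _ _ (WF.iprod_mem_hom y W3_mem) (iprod_self _ _), pull_id,
    ← vol2_eq, om, smul_smul, smul_smul]
  congr 1
  have := Real.pi_ne_zero
  field_simp

/-! ### the rotation -/

/-- the inclusion of the last three coordinates -/
noncomputable def j3 : (Fin 3 → ℝ) →L[ℝ] (Fin 4 → ℝ) :=
  ContinuousLinearMap.pi (Fin.cons 0 fun i => pj i)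

/-- the first basis vector -/
noncomputable def e0 : Fin 4 → ℝ := Pi.single 0 1

theorem j3_zero (y : Fin 3 → ℝ) : j3 y 0 = 0 := rfl

theorem j3_succ (y : Fin 3 → ℝ) (i : Fin 3) : j3 y i.succ = y i := rfl

theorem pull_j3_W4' : pull j3 W4' = W3 := by
  rw [W4', W3, map_mul, map_mul, pull_dx, pull_dx, pull_dx]
  rfl

theorem pull_j3_q0 : pull j3 (dx (qj 0)) = 0 := by
  rw [pull_dx]
  have h : (qj 0).comp j3 = 0 := by
    ext i
    rfl
  rw [h, map_zero]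

theorem iprod_e0 : iprod e0 W4' = 0 := by
  have h1 : qj 1 e0 = 0 := by simp [qj, e0]
  have h2 : qj 2 e0 = 0 := by simp [qj, e0]
  have h3 : qj 3 e0 = 0 := by simp [qj, e0]
  rw [W4', iprod_dx_mul, iprod_dx_mul, iprod_dx, h1, h2, h3, map_zero, zero_smul, zero_smul,
    mul_zero, sub_zero, mul_zero, sub_zero]

/-- the contraction of the volume form of `ℝ⁴` in polar coordinates -/
theorem iprod_W4 (c s : ℝ) (a : Fin 3 → ℝ) :
    pull j3 (iprod ((-s) • e0 + c • j3 a) (iprod (c • e0 + s • j3 a) W4)) =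
      (c ^ 2 + s ^ 2) • iprod a W3 := by
  have h0 : ∀ b : Fin 3 → ℝ, pull j3 (iprod (j3 b) W4') = iprod b W3 := fun b => by
    rw [← pull_iprod, pull_j3_W4']
  have h1 : ∀ p q : ℝ, iprod (p • e0 + q • j3 a) W4 = p • W4' - q • (dx (qj 0) *
      iprod (j3 a) W4') := fun p q => by
    rw [W4, iprod_dx_mul, iprod_add, iprod_smul, iprod_smul, iprod_e0, smul_zero, zero_add,
      mul_smul_comm]
    congr 2
    have e1 : j3 a 0 = 0 := j3_zero a
    change (p • e0 + q • j3 a) 0 = p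
    simp [e0, e1]
  rw [h1, map_sub, map_smul, map_smul, iprod_dx_mul, iprod_add, iprod_smul, iprod_smul, iprod_e0,
    smul_zero, zero_add]
  have e2 : qj 0 ((-s) • e0 + c • j3 a) = -s := by
    have e1 : j3 a 0 = 0 := j3_zero a
    change ((-s) • e0 + c • j3 a) 0 = -s
    simp [e0, e1]
  rw [e2, map_sub, map_smul, map_smul, map_smul, map_sub, map_mul, pull_j3_q0, zero_mul,
    sub_zero, map_smul, h0]
  module

/-- the map `(y, t) ↦ (cos t, sin t • y / |y|)` -/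
noncomputable def rt (p : (Fin 3 → ℝ) × ℝ) : Fin 4 → ℝ :=
  Real.cos p.2 • e0 + Real.sin p.2 • j3 (N3 p.1)

theorem hasFDerivAt_rt {y : Fin 3 → ℝ} (hy : y ≠ 0) (t : ℝ) :
    HasFDerivAt rt ((ContinuousLinearMap.snd ℝ (Fin 3 → ℝ) ℝ).smulRight
      ((-Real.sin t) • e0 + Real.cos t • j3 (N3 y)) + Real.sin t • (j3.comp
      ((fderiv ℝ N3 y).comp (ContinuousLinearMap.fst ℝ (Fin 3 → ℝ) ℝ)))) (y, t) := by
  obtain ⟨ρ, hρ⟩ := hasFDerivAt_N3 hy
  have hN : HasFDerivAt N3 (fderiv ℝ N3 y) y := hρ.differentiableAt.hasFDerivAt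
  have h1 : HasFDerivAt (fun p : (Fin 3 → ℝ) × ℝ => N3 p.1)
      ((fderiv ℝ N3 y).comp (ContinuousLinearMap.fst ℝ (Fin 3 → ℝ) ℝ)) (y, t) :=
    HasFDerivAt.comp (y, t) (g := N3) hN hasFDerivAt_fst
  have h2 : HasFDerivAt (fun p : (Fin 3 → ℝ) × ℝ => j3 (N3 p.1)) (j3.comp
      ((fderiv ℝ N3 y).comp (ContinuousLinearMap.fst ℝ (Fin 3 → ℝ) ℝ))) (y, t) :=
    j3.hasFDerivAt.comp (y, t) h1
  have h3 : HasFDerivAt (fun p : (Fin 3 → ℝ) × ℝ => Real.cos p.2)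
      ((-Real.sin t) • ContinuousLinearMap.snd ℝ (Fin 3 → ℝ) ℝ) (y, t) :=
    HasDerivAt.comp_hasFDerivAt (f := (Prod.snd : (Fin 3 → ℝ) × ℝ → ℝ)) (y, t)
      (Real.hasDerivAt_cos t) hasFDerivAt_snd
  have h4 : HasFDerivAt (fun p : (Fin 3 → ℝ) × ℝ => Real.sin p.2)
      ((Real.cos t) • ContinuousLinearMap.snd ℝ (Fin 3 → ℝ) ℝ) (y, t) :=
    HasDerivAt.comp_hasFDerivAt (f := (Prod.snd : (Fin 3 → ℝ) × ℝ → ℝ)) (y, t)
      (Real.hasDerivAt_sin t) hasFDerivAt_snd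
  have h5 := (h3.smul_const e0).add (h4.smul h2)
  refine h5.congr_fderiv ?_
  ext z
  · simp [e0]
  · simp [e0]

/-- **the rotation integrand** -/
theorem at1_rt {y : Fin 3 → ℝ} (hy : y ≠ 0) (t : ℝ) :
    at1 (pull (fderiv ℝ rt (y, t)) (iprod (rt (y, t)) W4)) =
      (Real.sin t ^ 2 * (4 * Real.pi)) • om y := by
  have hd := hasFDerivAt_rt hy t
  rw [hd.fderiv, at1_apply, at0_apply, pull_iprod, ← pull_comp_apply]
  have e1 : ((ContinuousLinearMap.snd ℝ (Fin 3 → ℝ) ℝ).smulRight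
      ((-Real.sin t) • e0 + Real.cos t • j3 (N3 y)) + Real.sin t • (j3.comp
      ((fderiv ℝ N3 y).comp (ContinuousLinearMap.fst ℝ (Fin 3 → ℝ) ℝ)))) ((0, 1) : (Fin 3 → ℝ) × ℝ) =
      (-Real.sin t) • e0 + Real.cos t • j3 (N3 y) := by
    simp
  have e2 : ((ContinuousLinearMap.snd ℝ (Fin 3 → ℝ) ℝ).smulRight
      ((-Real.sin t) • e0 + Real.cos t • j3 (N3 y)) + Real.sin t • (j3.comp
      ((fderiv ℝ N3 y).comp (ContinuousLinearMap.fst ℝ (Fin 3 → ℝ) ℝ)))).comp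
      (ContinuousLinearMap.inl ℝ (Fin 3 → ℝ) ℝ) = j3.comp (Real.sin t • fderiv ℝ N3 y) := by
    ext z
    simp
  rw [e1, e2, pull_comp_apply, rt, iprod_W4, Real.cos_sq_add_sin_sq, one_smul,
    pull_smul_hom (k := 2) _ _ (WF.iprod_mem_hom _ W3_mem), pull_N3 hy, smul_smul]

end Vale.Agent.P231.H649
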