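import Vale.Agent.P231.S2I.Hopf
import Vale.Agent.P231.S2I.OfOn
import Vale.Agent.P231.S2I.Nint

/-!
# P231, S2-I (I7): the constant `c` is an integer, abstract evaluation

`C : V × ℝ → S` is a homotopy on the punctured space `V ∖ 0`, `dim V = 4`, from a constant map to a
map `x ↦ σ (first column of G x)` with `G` a homogeneous map to the rotations.
-/

set_option linter.unusedSectionVars false
set_option linter.unusedVariables false

open MeasureTheory Set Module Filter Topology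
open scoped ContDiff

namespace Vale.Agent.P231.H649

open Fm W H584 S2I
open Q (dR Cut)

section Fun

variable {V : Type} [NormedAddCommGroup V] [InnerProductSpace ℝ V] [FiniteDimensional ℝ V]
  [MeasurableSpace V] [BorelSpace V]

theorem sm_val_id (w : Form (dP V)) : SM (w.val id) := fun x hx =>
  (w.smooth (at_id hx)).contDiffWithinAt

/-- the integral over the sphere, as a functional on the forms on the punctured space -/
noncomputable def JS {n : ℕ} (b : Fin n → V) {r : V → ℝ} {K : Set V} (hr : Cut r K) :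
    Form (dP V) →ₗ[ℝ] ℝ where
  toFun w := IS volume b r (w.val id)
  map_add' v w := by
    rw [← IS.add volume b hr (sm_val_id v) (sm_val_id w)]
    refine IS.congr volume b hr fun x _ => ?_
    rw [Form.add_val]
  map_smul' c w := by
    rw [RingHom.id_apply, smul_eq_mul, ← IS.smul]
    refine IS.congr volume b hr fun x _ => ?_
    rw [Form.smul_val]

variable {n : ℕ} {r : V → ℝ} {K : Set V}

theorem JS_apply (b : Fin n → V) (hr : Cut r K) (w : Form (dP V)) :
    JS b hr w = IS volume b r (w.val id) := rfl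

theorem JS_d (b : Fin n → V) (hr : Cut r K) (w : Form (dP V)) : JS b hr w.d = 0 := by
  rw [JS_apply, ← IS.extd volume b hr (sm_val_id w)]
  refine IS.congr volume b hr fun x hx => ?_
  rw [Form.d_val _ (at_id hx)]

theorem JS_mul (b : Fin n → V) (hr : Cut r K) (v w : Form (dP V)) :
    JS b hr (v * w) = IS volume b r (fun x => v.val id x * w.val id x) := by
  rw [JS_apply]
  refine IS.congr volume b hr fun x _ => ?_
  rw [Form.mul_val]

/-- forms pulled back by a map into the unit sphere of `ℝ³` -/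
theorem JS_rank (b : Basis (Fin 4) ℝ V) (hr : Cut r K) (w : Form (dP V)) {g : V → Fin 3 → ℝ}
    (hg : ∀ x ≠ 0, DifferentiableAt ℝ g x) (hn : ∀ x ≠ 0, n3 (g x) = 1)
    {W : (Fin 3 → ℝ) → Lam (Fin 3 → ℝ)} (hw : ∀ x ≠ 0, w.val id x = pb g W x) :
    JS b hr w = 0 := by
  rw [JS_apply, IS]
  have : ∀ x, evalForm (dR r x * w.val id x) b = 0 := fun x => by
    rcases eq_or_ne x 0 with rfl | hx
    · rw [hr.dR_near.self_of_nhds, zero_mul, Q.evalForm_zero]
    · rw [hw x hx]
      refine rank_zero (hg x hx) ?_ b _ W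
      filter_upwards [isOpen_ne.mem_nhds hx] with y hy using hn y hy
  simp [this]

end Fun

section Main

variable {V : Type} [NormedAddCommGroup V] [InnerProductSpace ℝ V] [FiniteDimensional ℝ V]
  [MeasurableSpace V] [BorelSpace V] {r : V → ℝ} {K : Set V} {S : Type*} {dS : Dif S}

/-- the punctured three dimensional space -/
noncomputable abbrev d3 : Dif (Fin 3 → ℝ) := (Dif.lin (Fin 3 → ℝ)).on {y | y ≠ 0}

theorem at_id3 {y : Fin 3 → ℝ} (hy : y ≠ 0) : d3.At (id : (Fin 3 → ℝ) → Fin 3 → ℝ) y :=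
  ⟨Sm.of_contDiff contDiff_id y, isOpen_ne.mem_nhds hy⟩

theorem n3_ne {y : Fin 3 → ℝ} (h : n3 y = 1) : y ≠ 0 := by
  rintro rfl
  simp [n3] at h

theorem map_g {g : V → Fin 3 → ℝ} (hg : ∀ x ≠ 0, ContDiffAt ℝ ∞ g x) (hn : ∀ x ≠ 0, n3 (g x) = 1) :
    (dP V).Map d3 g := by
  intro E' _ _ _ u x h
  have h1 : Sm u x := h.1
  have h2 : ∀ᶠ y in 𝓝 x, u y ≠ 0 := h.2
  refine ⟨?_, ?_⟩
  · have h4 : Sm (fun y => g (u y)) x := by
      filter_upwards [h1, h2] with y e1 e2
      exact (hg _ e2).comp y e1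
    exact h4
  · filter_upwards [h2] with y hy using n3_ne (hn _ hy)

/-- pull back of a form by a map which factors through `ℝ³ ∖ 0` -/
theorem pull_factor {j : V → S} (hj : (dP V).Map dS j) {g : V → Fin 3 → ℝ}
    (hg : ∀ x ≠ 0, ContDiffAt ℝ ∞ g x) (hn : ∀ x ≠ 0, n3 (g x) = 1) {σ : (Fin 3 → ℝ) → S}
    (hσ : d3.Map dS σ) (hjσ : ∀ x ≠ 0, j x = σ (g x)) (w : Form dS) {x : V} (hx : x ≠ 0) :
    (Form.pull j hj w).val id x = pb g (fun y => w.val σ y) x := by
  rw [Form.pull_val hj _ (at_id hx)]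
  have h1 : j ∘ id =ᶠ[𝓝 x] σ ∘ g := by
    filter_upwards [isOpen_ne.mem_nhds hx] with y hy using hjσ y hy
  have h2 : Sm g x := by
    filter_upwards [isOpen_ne.mem_nhds hx] with y hy using hg y hy
  rw [w.congr (hj (at_id hx)) h1, w.nat (u := σ) (g := g) (hσ (at_id3 (n3_ne (hn x hx)))) h2]
  rfl

/-- **(I7), abstract evaluation.** -/
theorem cz_eval (b : OrthonormalBasis (Fin 4) ℝ V) (hr : Cut r K) {C : V × ℝ → S}
    (hC : ((dP V).prod (Dif.lin ℝ)).Map dS C) {s₀ : S} (hC0 : ∀ x ≠ 0, C (x, 0) = s₀)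
    {G : V → M3} (hG : RotMap G) {σ : (Fin 3 → ℝ) → S} (hσ : d3.Map dS σ)
    (hC1 : ∀ x ≠ 0, C (x, 1) = σ (fun i => G x i 0)) {z u Λ : Form dS} (hz : z.d = 0)
    (hz2 : WF.IsDeg z 2) {μ k ν : ℝ} (hrel : z * z = μ • u + Λ.d)
    (hσz : ∀ y ≠ 0, z.val σ y = k • om y) (hu : JS b hr (Form.K (Form.pull C hC u)) = ν) :
    ∃ H : ℤ, k ^ 2 * H = μ * ν := by
  obtain ⟨H, hH⟩ := exists_hopf hG b
  refine ⟨H, ?_⟩
  have hI : ∀ w : Form (dP V), JS b hr w.d = 0 := JS_d b hr
  set g : V → Fin 3 → ℝ := fun x i => G x i 0 with hg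
  have hgs : ∀ x ≠ 0, ContDiffAt ℝ ∞ g x := fun x hx => by
    have h1 : ContDiffAt ℝ ∞ G x := hG.at hx
    rw [contDiffAt_pi] 
    intro i
    exact (contDiff_entry i 0).contDiffAt.comp x h1
  have hgn : ∀ x ≠ 0, n3 (g x) = 1 := fun x hx => by
    have h1 := (hG.so x hx).orth 0 0
    rw [n3]
    simp only [hg]
    simp at h1
    linarith
  have hj0 : (dP V).Map dS (fun x => C (x, 0)) := map_at hC 0
  have hj1 : (dP V).Map dS (fun x => C (x, 1)) := map_at hC 1
  -- the forms at time zero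
  have hg0 : ∀ x : V, x ≠ 0 → n3 ((fun _ : V => (Pi.single 0 1 : Fin 3 → ℝ)) x) = 1 := fun x _ => by
    simp [n3]
  have hσ0 : ∀ x : V, x ≠ 0 → (fun x => C (x, 0)) x =
      (fun _ : Fin 3 → ℝ => s₀) ((fun _ : V => (Pi.single 0 1 : Fin 3 → ℝ)) x) := fun x hx => hC0 x hx
  by_cases hV : ∃ x : V, x ≠ 0
  swap
  · exfalso
    push Not at hV
    have h1 := b.toBasis.linearIndependent.ne_zero 0
    exact h1 (hV _)
  obtain ⟨x₀, hx₀⟩ := hV
  have hcs : d3.Map dS (fun _ : Fin 3 → ℝ => s₀) := by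
    intro E' _ _ _ u x h
    have h1 : dS.At (fun y : V => C (y, 0)) x₀ := hj0 (at_id hx₀)
    have h2 : dS.At (fun _ : V => s₀) x₀ := dS.congr h1 (by
      filter_upwards [isOpen_ne.mem_nhds hx₀] with y hy using hC0 y hy)
    exact dS.comp (u := fun _ : V => s₀) (g := fun _ : E' => x₀) h2
      (Sm.of_contDiff contDiff_const _)
  have hat0 : ∀ (w : Form dS) (x : V), x ≠ 0 → (at_ 0 (Form.pull C hC w)).val id x =
      pb (fun _ : V => (Pi.single 0 1 : Fin 3 → ℝ)) (fun y => w.val (fun _ => s₀) y) x :=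
    fun w x hx => by
      have h1 : at_ 0 (Form.pull C hC w) = Form.pull (fun x => C (x, 0)) hj0 w := at_pull_of hC 0 w
      rw [h1]
      exact pull_factor hj0 (fun x _ => contDiffAt_const) hg0 hcs hσ0 w hx
  have hat1 : ∀ (w : Form dS) (x : V), x ≠ 0 → (at_ 1 (Form.pull C hC w)).val id x =
      pb g (fun y => w.val σ y) x :=
    fun w x hx => by
      have h1 : at_ 1 (Form.pull C hC w) = Form.pull (fun x => C (x, 1)) hj1 w := at_pull_of hC 1 w
      rw [h1]
      exact pull_factor hj1 hgs hgn hσ hC1 w hx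
  have hI0 : ∀ w : Form dS, JS b hr (at_ 0 (Form.pull C hC w)) = 0 := fun w =>
    JS_rank b.toBasis hr _ (fun x _ => differentiableAt_const _) hg0 (hat0 w)
  have hI1 : ∀ w : Form dS, JS b hr (at_ 1 (Form.pull C hC w)) = 0 := fun w =>
    JS_rank b.toBasis hr _ (fun x hx => (hgs x hx).differentiableAt (by simp)) hgn (hat1 w)
  -- the form `B`
  set B := Form.pull C hC z with hB
  have hBd : B.d = 0 := by rw [hB, ← Form.pull_d, hz, pull_zero']
  have hBe : B.sg = B := by rw [hB, ← Form.pull_sg, hz2.sg_even (k := 1)]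
  have hB0 : at_ 0 B = 0 := by
    refine ext_id isOpen_ne fun x hx => ?_
    have h3 : at_ 0 B = Form.pull (fun x => C (x, 0)) hj0 z := at_pull_of hC 0 z
    rw [h3, Form.pull_val hj0 _ (at_id hx), Form.zero_val]
    have h1 : (fun x => C (x, 0)) ∘ id =ᶠ[𝓝 x] (fun _ : Fin 0 → ℝ => s₀) ∘
        fun _ : V => (0 : Fin 0 → ℝ) := by
      filter_upwards [isOpen_ne.mem_nhds hx] with y hy using hC0 y hy
    have h4 : dS.At (fun _ : Fin 0 → ℝ => s₀) 0 := by
      have h5 : dS.At (fun y : V => C (y, 0)) x₀ := hj0 (at_id hx₀)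
      have h6 : dS.At (fun _ : V => s₀) x₀ := dS.congr h5 (by
        filter_upwards [isOpen_ne.mem_nhds hx₀] with y hy using hC0 y hy)
      exact dS.comp (u := fun _ : V => s₀) (g := fun _ : Fin 0 → ℝ => x₀) h6
        (Sm.of_contDiff contDiff_const _)
    rw [z.congr (hj0 (at_id hx)) h1, z.nat (u := fun _ : Fin 0 → ℝ => s₀)
      (g := fun _ : V => (0 : Fin 0 → ℝ)) h4 (Sm.of_contDiff contDiff_const _),
      WF.eq_zero_of_mem_hom (k := 2) (by simp) (hz2 h4), map_zero]
  have hsq := I_K_sq hI hBd hBe (τ := 0) (by rw [hB0, Form.d_zero])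
  have hKd : (Form.K B).d = at_ 1 B := by
    have h3 : at_ 1 B - at_ 0 B = (Form.K B).d := by
      rw [homotopy', hBd, K_zero, zero_add]
    rw [← h3, hB0, sub_zero]
  rw [zero_add, zero_mul, map_zero, sub_zero, ← hKd, JS_mul] at hsq
  have hext : ∀ x ≠ 0, extd ((Form.K B).val id) x = (Form.K B).d.val id x := fun x hx =>
    (Form.d_val _ (at_id hx)).symm
  have hH1 := hH k 0 ((Form.K B).val id) (SM.of fun x _ => contDiffAt_const) (sm_val_id _)
    (fun x hx => by
      rw [hext x hx, hKd, hB, hat1 z x hx]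
      have h5 : g x ≠ 0 := n3_ne (hgn x hx)
      rw [pb, pb, hσz _ h5]
      have h6 : extd (0 : (Fin 3 → ℝ) → Lam (Fin 3 → ℝ)) (g x) = 0 := extd_const _ _
      congr 1
      change _ = k • om (g x) + extd (0 : (Fin 3 → ℝ) → Lam (Fin 3 → ℝ)) (g x)
      rw [h6, add_zero]) r K hr
  have hL : JS b hr (Form.K (B * B)) = k ^ 2 * H := by
    rw [hsq, ← hH1]
    refine IS.congr volume b hr fun x hx => ?_
    rw [hext x hx]
  have hR : JS b hr (Form.K (B * B)) = μ * ν := by
    rw [hB, ← pull_mul', hrel, pull_add', pull_smul', Form.K_add, Form.K_smul, map_add, map_smul,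
      hu, Form.pull_d, I_K_d hI, hI0, hI1, sub_zero, add_zero, smul_eq_mul]
  rw [← hL, hR]

end Main

end Vale.Agent.P231.H649
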