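import Vale.Agent.P231.H649.FibA

/-!
# P231, S2-I (I7): the volume of the three dimensional sphere
-/

set_option linter.unusedSectionVars false
set_option linter.unusedVariables false

open MeasureTheory Set Module Filter Topology Metric
open scoped ContDiff RealInnerProductSpace

namespace Vale.Agent.P231.H649

open Fm S2I
open Q (dR Cut)
open Vale.Agent.P231.EN.Std (nsq chr)

variable {V : Type*} [NormedAddCommGroup V] [InnerProductSpace ℝ V] [FiniteDimensional ℝ V]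
  [MeasurableSpace V] [BorelSpace V] (b : OrthonormalBasis (Fin 4) ℝ V)

/-- the coordinates -/
noncomputable def L4 : V →L[ℝ] (Fin 4 → ℝ) := ContinuousLinearMap.pi fun i => cf b i

/-- the coordinates of the normalised vector -/
noncomputable def xi (x : V) : Fin 4 → ℝ := ‖x‖⁻¹ • L4 b x

theorem xi_apply (x : V) (i : Fin 4) : xi b x i = ‖x‖⁻¹ * ⟪b i, x⟫ := rfl

theorem contDiffAt_xi {x : V} (hx : x ≠ 0) : ContDiffAt ℝ ∞ (xi b) x :=
  ((contDiffAt_norm ℝ hx).inv (norm_ne_zero_iff.2 hx)).smul (L4 b).contDiff.contDiffAt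

theorem sum_xi_sq {x : V} (hx : x ≠ 0) : ∑ i, xi b x i ^ 2 = 1 := by
  have h1 : ∑ i, ⟪b i, x⟫ ^ 2 = ‖x‖ ^ 2 := b.sum_sq_inner_right x
  have h2 : ‖x‖ ≠ 0 := norm_ne_zero_iff.2 hx
  simp only [xi_apply, mul_pow]
  rw [← Finset.mul_sum, h1]
  field_simp

theorem hasFDerivAt_xi {x : V} (hx : x ≠ 0) : ∃ ρ : V →L[ℝ] ℝ,
    HasFDerivAt (xi b) (‖x‖⁻¹ • L4 b + ρ.smulRight (L4 b x)) x := by
  have h3 : DifferentiableAt ℝ (fun y : V => ‖y‖⁻¹) x :=
    ((contDiffAt_norm ℝ hx).inv (norm_ne_zero_iff.2 hx) : ContDiffAt ℝ ∞ _ x).differentiableAt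
      (by simp)
  refine ⟨fderiv ℝ (fun y : V => ‖y‖⁻¹) x, ?_⟩
  exact h3.hasFDerivAt.smul (L4 b).hasFDerivAt

theorem evalForm_L4 : evalForm (pull (L4 b) W4) b = 1 := by
  have h1 : ∀ i j, (qj i).comp (L4 b) (b j) = if i = j then 1 else 0 := fun i j => cf_b b i j
  rw [W4, W4', map_mul, map_mul, map_mul, pull_dx, pull_dx, pull_dx, pull_dx, evalForm_apply,
    cont_succ, cont_succ, cont_succ, cont_succ, Fm.cont_zero, iprod_dx_mul]
  have a0 : (qj 0).comp (L4 b) (b 0) = 1 := by rw [h1]; rfl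
  have z10 : (qj 1).comp (L4 b) (b 0) = 0 := by rw [h1]; rfl
  have z20 : (qj 2).comp (L4 b) (b 0) = 0 := by rw [h1]; rfl
  have z30 : (qj 3).comp (L4 b) (b 0) = 0 := by rw [h1]; rfl
  have a1 : (qj 1).comp (L4 b) (b 1) = 1 := by rw [h1]; rfl
  have z21 : (qj 2).comp (L4 b) (b 1) = 0 := by rw [h1]; rfl
  have z31 : (qj 3).comp (L4 b) (b 1) = 0 := by rw [h1]; rfl
  have a2 : (qj 2).comp (L4 b) (b 2) = 1 := by rw [h1]; rfl
  have z32 : (qj 3).comp (L4 b) (b 2) = 0 := by rw [h1]; rfl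
  have a3 : (qj 3).comp (L4 b) (b 3) = 1 := by rw [h1]; rfl
  have e0 : iprod (b 0) (dx ((qj 1).comp (L4 b)) * (dx ((qj 2).comp (L4 b)) *
      dx ((qj 3).comp (L4 b)))) = 0 := by
    rw [iprod_dx_mul, iprod_dx_mul, iprod_dx, z10, z20, z30]
    simp
  rw [a0, e0, mul_zero, sub_zero, one_smul]
  have e1 : iprod (b 1) (dx ((qj 1).comp (L4 b)) * (dx ((qj 2).comp (L4 b)) *
      dx ((qj 3).comp (L4 b)))) = dx ((qj 2).comp (L4 b)) * dx ((qj 3).comp (L4 b)) := by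
    rw [iprod_dx_mul, iprod_dx_mul, iprod_dx, a1, z21, z31]
    simp
  have e2 : iprod (b 2) (dx ((qj 2).comp (L4 b)) * dx ((qj 3).comp (L4 b))) =
      dx ((qj 3).comp (L4 b)) := by
    rw [iprod_dx_mul, iprod_dx, a2, z32]
    simp
  change aug (iprod (b 3) (iprod (b 2) (iprod (b 1) _))) = 1
  rw [e1, e2, iprod_dx, a3]
  simp

/-- contraction with the position vector -/
theorem evalForm_dx_iprod (a : V →L[ℝ] ℝ) (x : V) (Ω : Lam V) :
    evalForm (dx a * iprod x Ω) b = a x * evalForm Ω b := by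
  have h1 := EN.Std.evalForm_cons_basis b.toBasis x (dx a * Ω)
  rw [iprod_dx_mul, Q.evalForm_sub, Q.evalForm_smul, b.coe_toBasis] at h1
  linarith

theorem fderiv_ru (x : V) : fderiv ℝ (ru b) x x = deriv chr (‖x‖ ^ 2) * (2 * ‖x‖ ^ 2) := by
  have h1 : ru b = fun z => chr (‖z‖ ^ 2) := funext fun z => by rw [ru, nsq_eq]
  rw [h1]
  have h2 : HasFDerivAt (fun z : V => ‖z‖ ^ 2) (2 • (innerSL ℝ x)) x :=
    (hasStrictFDerivAt_norm_sq x).hasFDerivAt
  have h3 : HasDerivAt chr (deriv chr (‖x‖ ^ 2)) (‖x‖ ^ 2) :=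
    (EN.Std.contDiff_chr.differentiable (by simp) _).hasDerivAt
  have h4 := HasDerivAt.comp_hasFDerivAt (f := fun z : V => ‖z‖ ^ 2) x h3 h2
  have h5 : (chr ∘ fun z : V => ‖z‖ ^ 2) = fun z => chr (‖z‖ ^ 2) := rfl
  rw [h5] at h4
  rw [h4.fderiv]
  simp

/-- **the volume of the three dimensional sphere** -/
theorem IS_xi : IS volume b (ru b) (fun x => pull (fderiv ℝ (xi b) x) (iprod (xi b x) W4)) =
    2 * Real.pi ^ 2 := by
  have h1 := EN.Std.density_integral 1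
  have h2 := integral_radial b (fun t => deriv chr t * (2 ^ (1 + 1) * (Nat.factorial 1 : ℝ) *
    (t ^ 1)⁻¹))
  have h3 : IS volume b (ru b) (fun x => pull (fderiv ℝ (xi b) x) (iprod (xi b x) W4)) =
      ∫ z : V, (2 : ℝ)⁻¹ * (deriv chr (‖z‖ ^ 2) * (2 ^ (1 + 1) * (Nat.factorial 1 : ℝ) *
    ((‖z‖ ^ 2) ^ 1)⁻¹)) := by
    refine integral_congr_ae (Filter.Eventually.of_forall fun x => ?_)
    rcases eq_or_ne x 0 with rfl | hx
    · simp only [(cut_ru b).dR_near.self_of_nhds, zero_mul, Q.evalForm_zero, norm_zero]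
      rw [EN.Std.deriv_chr_le (by norm_num), zero_mul, mul_zero]
    · obtain ⟨ρ, hρ⟩ := hasFDerivAt_xi b hx
      have hn : ‖x‖ ≠ 0 := norm_ne_zero_iff.2 hx
      change evalForm (dR (ru b) x * pull (fderiv ℝ (xi b) x) (iprod (xi b x) W4)) b = _
      rw [hρ.fderiv, xi, iprod_smul, map_smul,
        pull_rad_hom (k := 3) _ _ _ (WF.iprod_mem_hom _ W4_mem) (iprod_self _ _), ← pull_iprod,
        smul_smul, mul_smul_comm, Q.evalForm_smul, dR, evalForm_dx_iprod, evalForm_L4, fderiv_ru]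
      simp only [Nat.factorial_one, Nat.cast_one, pow_one]
      field_simp
  rw [h3, integral_const_mul, h2]
  have h4 : ∫ y : Fin 4 → ℝ, deriv chr (∑ i, y i ^ 2) * (2 ^ (1 + 1) * (Nat.factorial 1 : ℝ) *
    ((∑ i, y i ^ 2) ^ 1)⁻¹) = (2 * Real.pi) ^ (1 + 1) := h1
  rw [h4]
  ring

end Vale.Agent.P231.H649
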