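import Vale.Agent.P231.H649.CZ1
import Vale.Agent.P231.H649.FibB
import Vale.Agent.P231.S2I3.Rot
import Vale.Agent.P231.WR.Two
import Vale.Agent.P231.H584.Flow

/-!
# P231, S2-I (I7): the rotation average of the solid angle form
-/

set_option maxSynthPendingDepth 3
set_option linter.unusedSectionVars false
set_option linter.unusedVariables false

open Bundle Manifold Set Filter Module MeasureTheory
open scoped ContDiff Manifold Topology

namespace Vale.Agent.P231.H649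

noncomputable section

open Vale.Agent.P234 Vale.Agent.P231 Vale.Agent.P231.Fm Vale.Agent.P231.W Vale.Agent.P231.WR
open Vale.Agent.P231.S2I3 Vale.Agent.P231.S2I Vale.Agent.P231.H584

variable {E : Type*} [NormedAddCommGroup E] [NormedSpace ℝ E]
  {M : Type*} [MetricSpace M] [ChartedSpace E M]
  [RiemannianBundle (fun x : M => TangentSpace 𝓘(ℝ, E) x)]
  {e : ∀ x : M, TangentSpace 𝓘(ℝ, E) x → M}
  [FiniteDimensional ℝ E] [IsManifold 𝓘(ℝ, E) ∞ M]
  [IsContMDiffRiemannianBundle 𝓘(ℝ, E) ∞ E (fun x : M => TangentSpace 𝓘(ℝ, E) x)]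
  [CompactSpace M] [ConnectedSpace M] [IsRiemannianManifold 𝓘(ℝ, E) M] {D : ℝ}

/-- the form `B0` is `c0` times the solid angle form on the unit sphere of the span of `ε` in
`T_p M` -/
def FibVal (B0 : Form (dUT E M)) (p : M) (ε : Fin 4 → E) (c0 : ℝ) : Prop :=
  ∀ {E' : Type} [NormedAddCommGroup E'] [NormedSpace ℝ E'] [FiniteDimensional ℝ E']
    {U : E' → UT E M} {ξ : E' → Fin 4 → ℝ} {x : E'}, Sm ξ x →
    (∀ᶠ y in 𝓝 x, foot (U y) = p ∧ (vec' (U y) : E) = ∑ i, ξ y i • ε i) →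
    B0.val U x = c0 • pull (fderiv ℝ ξ x) (iprod (ξ x) W4)

/-- inner products of combinations -/
theorem ip_comb_sum {ι : Type*} [Fintype ι] [DecidableEq ι] (x : M) {w : ι → E}
    (hw : ∀ i j, ip x (w i) (w j) = if i = j then 1 else 0) (c d : ι → ℝ) :
    ip x (∑ i, c i • w i) (∑ j, d j • w j) = ∑ i, c i * d i := by
  rw [ip_sum_left]
  refine Finset.sum_congr rfl fun i _ => ?_
  rw [ip_sum_right]
  simp only [ip_smul_left', ip_smul_right', hw]
  simp [mul_comm]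

/-- the vectors of a frame are orthonormal -/
theorem fr_ip {k : ℕ} (p₀ : Fr e D k) (i j : Fin k) :
    ip (foot p₀.v) (vec' (p₀.w i)) (vec' (p₀.w j)) = if i = j then 1 else 0 := by
  by_cases hij : i = j
  · subst hij
    rw [if_pos rfl]
    exact (p₀.isLF.isL i).ip_self
  · rw [if_neg hij]
    exact p₀.isLF.orth i j hij

/-- the raw vector of the sphere -/
def sgr (p₀ : Fr e D 3) (y : Fin 3 → ℝ) : E := ∑ i, N3 y i • vec' (p₀.w i)

theorem nm_sgr (p₀ : Fr e D 3) {y : Fin 3 → ℝ} (hy : y ≠ 0) :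
    nm (foot p₀.v) (sgr p₀ y) = 1 := by
  refine nm_eq_one ?_
  rw [sgr, ip_comb_sum _ (fr_ip p₀)]
  have h1 := n3_N3 hy
  rw [n3] at h1
  rw [Fin.sum_univ_three]
  linarith

theorem isL_sgr (F : Facts e) (hD : 0 < D) (hB : InjGE e D) (hdiam : ∀ p q : M, dist p q ≤ D)
    (p₀ : Fr e D 3) {y : Fin 3 → ℝ} (hy : y ≠ 0) :
    IsL e D p₀.v (W.mk (E := E) (foot p₀.v) (sgr p₀ y) (nm_sgr p₀ hy)) := by
  refine (isL_iff F hD hB hdiam (nm_sgr p₀ hy)).1 ?_
  have h3 : ∀ i, (vec' (E := E) (p₀.w i) : TangentSpace 𝓘(ℝ, E) (foot p₀.v)) ∈ Lf e D p₀.v :=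
    fun i => (p₀.isLF.isL i).mem_Lf
  exact Submodule.sum_mem _ fun i _ => Submodule.smul_mem _ _ (h3 i)

/-- the constructor of pairs -/
def prm (v w : UT E M) (h : IsL e D v w) : Pr e D := ⟨(v, w), h⟩

theorem prm_v (v w : UT E M) (h : IsL e D v w) : (prm v w h).v = v := rfl

theorem prm_w (v w : UT E M) (h : IsL e D v w) : (prm v w h).w = w := rfl

open Classical in
/-- the sphere of the pairs `(v, w)` over `v` -/
def sg (F : Facts e) (hD : 0 < D) (hB : InjGE e D) (hdiam : ∀ p q : M, dist p q ≤ D)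
    (p₀ : Fr e D 3) (y : Fin 3 → ℝ) : Pr e D :=
  if hy : y ≠ 0 then prm p₀.v (W.mk (E := E) (foot p₀.v) (sgr p₀ y) (nm_sgr p₀ hy))
    (isL_sgr F hD hB hdiam p₀ hy) else p₀.pr 0

section Sg

variable (F : Facts e) (hD : 0 < D) (hB : InjGE e D) (hdiam : ∀ p q : M, dist p q ≤ D)
  (p₀ : Fr e D 3)

theorem sg_pos {y : Fin 3 → ℝ} (hy : y ≠ 0) : sg F hD hB hdiam p₀ y =
    prm p₀.v (W.mk (E := E) (foot p₀.v) (sgr p₀ y) (nm_sgr p₀ hy))
      (isL_sgr F hD hB hdiam p₀ hy) := dif_pos hy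

theorem sg_neg {y : Fin 3 → ℝ} (hy : ¬ y ≠ 0) : sg F hD hB hdiam p₀ y = p₀.pr 0 := dif_neg hy

theorem sg_v (y : Fin 3 → ℝ) : (sg F hD hB hdiam p₀ y).v = p₀.v := by
  by_cases h : y ≠ 0
  · rw [sg_pos F hD hB hdiam p₀ h, prm_v]
  · rw [sg_neg F hD hB hdiam p₀ h, Fr.pr_v]

theorem sg_w {y : Fin 3 → ℝ} (hy : y ≠ 0) : (sg F hD hB hdiam p₀ y).w =
    W.mk (E := E) (foot p₀.v) (sgr p₀ y) (nm_sgr p₀ hy) := by
  rw [sg_pos F hD hB hdiam p₀ hy, prm_w]

theorem contDiffAt_N3 {y : Fin 3 → ℝ} (hy : y ≠ 0) : ContDiffAt ℝ ∞ N3 y := by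
  have h1 : 0 < n3 y := n3_pos hy
  have h2 : ContDiffAt ℝ ∞ n3 y := by
    unfold n3
    fun_prop
  exact ((h2.sqrt h1.ne').inv (Real.sqrt_pos.2 h1).ne').smul contDiffAt_id

theorem map_sg : d3.Map (dPr e D) (sg F hD hB hdiam p₀) := by
  intro E' _ _ _ u x h
  have h1 : Sm u x := h.1
  have h2 : ∀ᶠ y in 𝓝 x, u y ≠ 0 := h.2
  refine ⟨?_, ?_⟩
  · have h3 : (fun y => (sg F hD hB hdiam p₀ (u y)).v) = fun _ => p₀.v :=
      funext fun y => sg_v F hD hB hdiam p₀ _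
    change (dUT E M).At (fun y => (sg F hD hB hdiam p₀ (u y)).v) x
    rw [h3]
    exact H583.at_const _ _
  · refine at_sphere (p := foot p₀.v) (u := fun y => (sgr (E := E) p₀ (u y) :
      TangentSpace 𝓘(ℝ, E) (foot p₀.v))) ?_ ?_
    · filter_upwards [h1, h2] with y e1 e2
      have h4 : ∀ i : Fin 3, ContDiffAt ℝ ∞ (fun y => N3 (u y) i) y := fun i =>
        contDiffAt_pi.1 ((contDiffAt_N3 e2).comp y e1) i
      let w' : Fin 3 → TangentSpace 𝓘(ℝ, E) (foot p₀.v) := fun i => vec' (E := E) (p₀.w i)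
      have h5 : ContDiffAt ℝ ∞ (fun y => ∑ i, N3 (u y) i • w' i) y :=
        ContDiffAt.sum fun i _ => (h4 i).smul contDiffAt_const
      exact h5
    · filter_upwards [h2] with y e2
      change foot (sg F hD hB hdiam p₀ (u y)).w = _ ∧ vec' (sg F hD hB hdiam p₀ (u y)).w = _
      rw [sg_w F hD hB hdiam p₀ e2]
      exact ⟨rfl, rfl⟩

/-- the basis of the plane -/
def eps (p₀ : Fr e D 3) : Fin 4 → E := Fin.cons (vec' p₀.v) fun i => vec' (p₀.w i)

/-- the rotated sphere -/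
theorem rv_sg {y : Fin 3 → ℝ} (hy : y ≠ 0) (t : ℝ) :
    vec' (rv (sg F hD hB hdiam p₀ y) t) = ∑ i, rt (y, t) i • eps p₀ i := by
  rw [vec'_rv, sg_v, sg_w F hD hB hdiam p₀ hy, vec'_mk, Fin.sum_univ_succ, sgr, Finset.smul_sum]
  have e1 : rt (y, t) 0 = Real.cos t := by
    have h1 : j3 (N3 y) 0 = 0 := j3_zero _
    simp [rt, e0, h1]
  have e2 : ∀ i : Fin 3, rt (y, t) i.succ = Real.sin t * N3 y i := fun i => by
    have h1 : j3 (N3 y) i.succ = N3 y i := j3_succ _ _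
    have h2 : e0 i.succ = 0 := by simp [e0]
    simp [rt, h1, h2]
  rw [e1]
  congr 1
  refine Finset.sum_congr rfl fun i _ => ?_
  rw [e2, smul_smul]
  rfl

theorem sm_rt {y : Fin 3 → ℝ} (hy : y ≠ 0) (t : ℝ) : Sm rt (y, t) := by
  have h1 : ∀ᶠ q : (Fin 3 → ℝ) × ℝ in 𝓝 (y, t), q.1 ≠ 0 :=
    (continuous_fst.tendsto ((y, t) : (Fin 3 → ℝ) × ℝ)).eventually (isOpen_ne.mem_nhds hy)
  filter_upwards [h1] with q hq
  have h2 : ContDiffAt ℝ ∞ (fun q : (Fin 3 → ℝ) × ℝ => N3 q.1) q :=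
    (contDiffAt_N3 hq).comp q contDiffAt_fst
  exact ((Real.contDiff_cos.contDiffAt.comp q contDiffAt_snd).smul contDiffAt_const).add
    ((Real.contDiff_sin.contDiffAt.comp q contDiffAt_snd).smul
      (j3.contDiff.contDiffAt.comp q h2))

/-- **the rotation average of the solid angle form on the sphere of `L_v`** -/
theorem J_sg {B0 : Form (dUT E M)} {c0 : ℝ} (hf : FibVal B0 (foot p₀.v) (eps p₀) c0)
    {y : Fin 3 → ℝ} (hy : y ≠ 0) :
    (J (R F hD hB hdiam) (isFlow_R F hD hB hdiam).map (2 * Real.pi)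
      (Form.pull Pr.v map_v B0)).val (sg F hD hB hdiam p₀) y = (c0 * (4 * Real.pi ^ 2)) • om y := by
  have hat : (dPr e D).At (sg F hD hB hdiam p₀) y := map_sg F hD hB hdiam p₀ (at_id3 hy)
  rw [J_def, KT_val _ _ hat]
  have key : ∀ t : ℝ, co (Form.pull (R F hD hB hdiam) (isFlow_R F hD hB hdiam).map
      (Form.pull Pr.v map_v B0)) (sg F hD hB hdiam p₀) y t =
      (Real.sin t ^ 2) • ((c0 * (4 * Real.pi)) • om y) := fun t => by
    rw [co, Form.pull_val _ _ (Form.cyl_at hat t), Form.pull_val _ _ (map_R F hD hB hdiam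
      (Form.cyl_at hat t))]
    rw [hf (ξ := rt) (sm_rt hy t) (by
      have h1 : ∀ᶠ q : (Fin 3 → ℝ) × ℝ in 𝓝 (y, t), q.1 ≠ 0 :=
        (continuous_fst.tendsto ((y, t) : (Fin 3 → ℝ) × ℝ)).eventually (isOpen_ne.mem_nhds hy)
      filter_upwards [h1] with q hq
      refine ⟨?_, ?_⟩
      · change foot (rv (sg F hD hB hdiam p₀ q.1) q.2) = foot p₀.v
        rw [foot_rv, sg_v]
      · exact rv_sg F hD hB hdiam p₀ hq q.2), map_smul, at1_rt hy]
    module
  simp only [key]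
  rw [intervalIntegral.integral_smul_const, integral_sin_sq, smul_smul]
  congr 1
  simp
  ring

end Sg

end

end Vale.Agent.P231.H649
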