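import Vale.Agent.P231.H649.CZ2
import Vale.Agent.P231.WR.PenR

/-!
# P231, S2-I (I7): the geodesics from a cut point to the base point
-/

set_option maxSynthPendingDepth 3
set_option linter.unusedSectionVars false
set_option linter.unusedVariables false

open Bundle Manifold Set Filter Module MeasureTheory
open scoped ContDiff Manifold Topology

namespace Vale.Agent.P231.H649

noncomputable section

open Vale.Agent.P234 Vale.Agent.P231 Vale.Agent.P231.Fm Vale.Agent.P231.W Vale.Agent.P231.WR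
open Vale.Agent.P231.S2I3 Vale.Agent.P231.S2I Vale.Agent.P231.H584 Vale.Agent.P231.H775

variable {E : Type*} [NormedAddCommGroup E] [NormedSpace ℝ E]
  {M : Type*} [MetricSpace M] [ChartedSpace E M]
  [RiemannianBundle (fun x : M => TangentSpace 𝓘(ℝ, E) x)]
  {e : ∀ x : M, TangentSpace 𝓘(ℝ, E) x → M}
  [FiniteDimensional ℝ E] [IsManifold 𝓘(ℝ, E) ∞ M]
  [IsContMDiffRiemannianBundle 𝓘(ℝ, E) ∞ E (fun x : M => TangentSpace 𝓘(ℝ, E) x)]
  [CompactSpace M] [ConnectedSpace M] [IsRiemannianManifold 𝓘(ℝ, E) M] {D : ℝ}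

theorem eps_zero (p₁ : Fr e D 3) : eps p₁ 0 = vec' p₁.v := rfl

theorem eps_succ (p₁ : Fr e D 3) (i : Fin 3) : eps p₁ i.succ = vec' (p₁.w i) := rfl

theorem eps_ip (p₁ : Fr e D 3) (i j : Fin 4) :
    ip (foot p₁.v) (eps p₁ i) (eps p₁ j) = if i = j then 1 else 0 := by
  induction i using Fin.cases with
  | zero =>
    induction j using Fin.cases with
    | zero =>
      rw [if_pos rfl]
      exact ip_vec' p₁.v
    | succ j =>
      rw [if_neg (Fin.succ_ne_zero j).symm]
      exact (p₁.isLF.isL j).orth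
  | succ i =>
    induction j using Fin.cases with
    | zero =>
      rw [if_neg (Fin.succ_ne_zero i), ip_comm']
      exact (p₁.isLF.isL i).orth
    | succ j =>
      simp only [Fin.succ_inj]
      exact fr_ip p₁ i j

theorem eps_mem (p₁ : Fr e D 3) (i : Fin 4) :
    (eps (E := E) p₁ i : TangentSpace 𝓘(ℝ, E) (foot p₁.v)) ∈
      H775.Pl e D (bar e D p₁.v) (foot p₁.v) := by
  induction i using Fin.cases with
  | zero => exact self_mem_Pl D p₁.v
  | succ i => exact (mem_Lf.1 (p₁.isLF.isL i).mem_Lf).1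

variable {V : Type*} [NormedAddCommGroup V] [InnerProductSpace ℝ V] [FiniteDimensional ℝ V]
  [MeasurableSpace V] [BorelSpace V] (b : OrthonormalBasis (Fin 4) ℝ V)

/-- the raw unit vectors at the base point -/
def ur (p₁ : Fr e D 3) (x : V) : E := ∑ i, xi b x i • eps p₁ i

theorem nm_ur (p₁ : Fr e D 3) {x : V} (hx : x ≠ 0) : nm (foot p₁.v) (ur b p₁ x) = 1 := by
  refine nm_eq_one ?_
  rw [ur, ip_comb_sum _ (eps_ip p₁)]
  have h1 := sum_xi_sq b hx
  simp only [sq] at h1
  exact h1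

/-- the unit vectors at the base point -/
def vs (p₁ : Fr e D 3) (x : Px V) : UT E M := W.mk (foot p₁.v) (ur b p₁ (x : V)) (nm_ur b p₁ x.2)

@[simp] theorem foot_vs (p₁ : Fr e D 3) (x : Px V) : foot (vs b p₁ x) = foot p₁.v := rfl

@[simp] theorem vec'_vs (p₁ : Fr e D 3) (x : Px V) : vec' (vs b p₁ x) = ur b p₁ (x : V) := rfl

section Geo

variable (F : Facts e) (hD : 0 < D) (hB : InjGE e D) (hdiam : ∀ p q : M, dist p q ≤ D)
  (p₁ : Fr e D 3)

include F hD hB hdiam in
theorem bar_vs (x : Px V) : bar e D (vs b p₁ x) = bar e D p₁.v := by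
  have h1 : (ur (E := E) b p₁ (x : V) : TangentSpace 𝓘(ℝ, E) (foot p₁.v)) ∈
      H775.Pl e D (bar e D p₁.v) (foot p₁.v) :=
    Submodule.sum_mem _ fun i _ => Submodule.smul_mem _ _ (eps_mem p₁ i)
  exact ((H775.mem_Lk_iff F hD hB hdiam (dist_bar' F hD hB p₁.v)).2 ⟨nm_ur b p₁ x.2, h1⟩).2

/-- the transported basis at the cut point -/
def tau (i : Fin 4) : E := (-1 : ℝ) • TP F hD hB hdiam p₁.v (eps p₁ i)

/-- the raw unit vectors at the cut point -/
def uz (x : V) : E := ∑ i, xi b x i • tau F hD hB hdiam p₁ i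

theorem TP_sum {ι : Type*} (s : Finset ι) (v : UT E M) (c : ι → ℝ) (a : ι → E) :
    TP F hD hB hdiam v (∑ i ∈ s, c i • a i) = ∑ i ∈ s, c i • TP F hD hB hdiam v (a i) := by
  classical
  induction s using Finset.induction_on with
  | empty =>
    rw [Finset.sum_empty, Finset.sum_empty]
    have h1 := TP_smul F hD hB hdiam v 0 (0 : E)
    rwa [zero_smul, zero_smul] at h1
  | insert i s hi ih =>
    rw [Finset.sum_insert hi, Finset.sum_insert hi, TP_add, TP_smul, ih]

theorem uz_eq (x : Px V) : uz b F hD hB hdiam p₁ (x : V) =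
    -vec' (phi F (vs b p₁ x, D)) := by
  have h1 := TP_vec F hD hB hdiam (foot_vs b p₁ x) (bar_vs b F hD hB hdiam p₁ x)
  rw [← h1, vec'_vs, ur, TP_sum, uz, ← Finset.sum_neg_distrib]
  refine Finset.sum_congr rfl fun i _ => ?_
  rw [tau, neg_one_smul, smul_neg]

theorem nm_uz (x : Px V) : nm (bar e D p₁.v) (uz b F hD hB hdiam p₁ (x : V)) = 1 := by
  have h1 := (ng (phi F (vs b p₁ x, D))).2
  have h2 : nm (bar e D (vs b p₁ x)) (-vec' (phi F (vs b p₁ x, D)) : E) = 1 := h1
  rw [bar_vs b F hD hB hdiam, ← uz_eq] at h2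
  exact h2

/-- the unit vectors at the cut point -/
def vz (x : Px V) : UT E M :=
  W.mk (bar e D p₁.v) (uz b F hD hB hdiam p₁ (x : V)) (nm_uz b F hD hB hdiam p₁ x)

@[simp] theorem foot_vz (x : Px V) : foot (vz b F hD hB hdiam p₁ x) = bar e D p₁.v := rfl

@[simp] theorem vec'_vz (x : Px V) :
    vec' (vz b F hD hB hdiam p₁ x) = uz b F hD hB hdiam p₁ (x : V) := rfl

theorem vz_eq (x : Px V) : vz b F hD hB hdiam p₁ x = ng (phi F (vs b p₁ x, D)) :=
  mk_congr (bar_vs b F hD hB hdiam p₁ x).symm (uz_eq b F hD hB hdiam p₁ x)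

/-- the same geodesic in the opposite direction -/
theorem gm_vz (x : Px V) (s : ℝ) :
    gm e (vz b F hD hB hdiam p₁ x, s) = gm e (vs b p₁ x, D - s) := by
  rw [vz_eq, gm_ng, gm_phi, sub_eq_add_neg]

theorem gm_vz_D (x : Px V) : gm e (vz b F hD hB hdiam p₁ x, D) = foot p₁.v := by
  rw [gm_vz, sub_self, gm_zero F, foot_vs]

theorem bar_vz (x : Px V) : bar e D (vz b F hD hB hdiam p₁ x) = foot p₁.v :=
  gm_vz_D b F hD hB hdiam p₁ x

end Geo

end

end Vale.Agent.P231.H649
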