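import Vale.Agent.P231.H649.CZ3

/-!
# P231, S2-I (I7): the path of unit vectors

`pth x t` goes from a fixed unit vector `ν` at the cut point (`t = 0`) to the unit vector `p₁.v` at
the base point (`t = 1`), along the geodesic in the direction `x`.
-/

set_option maxSynthPendingDepth 3
set_option linter.unusedSectionVars false
set_option linter.unusedVariables false

open Bundle Manifold Set Filter Module MeasureTheory
open scoped ContDiff Manifold Topology

namespace Vale.Agent.P231.H649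

noncomputable section

open Vale.Agent.P234 Vale.Agent.P231 Vale.Agent.P231.Fm Vale.Agent.P231.W Vale.Agent.P231.WR
open Vale.Agent.P231.S2I3 Vale.Agent.P231.S2I Vale.Agent.P231.H584 Vale.Agent.P231.H775

/-- the first time function -/
def h1f (t : ℝ) : ℝ := Real.smoothTransition (3 * t)

/-- the second time function -/
def h2f (t : ℝ) : ℝ := Real.smoothTransition (3 * t - 2)

theorem h1f_mem (t : ℝ) : 0 ≤ h1f t ∧ h1f t ≤ 1 :=
  ⟨Real.smoothTransition.nonneg _, Real.smoothTransition.le_one _⟩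

theorem h1f_one {t : ℝ} (ht : 1 / 3 ≤ t) : h1f t = 1 :=
  Real.smoothTransition.one_of_one_le (by linarith)

theorem h1f_zero : h1f 0 = 0 := by
  rw [h1f, mul_zero]
  exact Real.smoothTransition.zero

theorem h2f_zero {t : ℝ} (ht : t ≤ 2 / 3) : h2f t = 0 :=
  Real.smoothTransition.zero_of_nonpos (by linarith)

theorem h2f_one : h2f 1 = 1 := Real.smoothTransition.one_of_one_le (by norm_num)

theorem contDiff_h1f : ContDiff ℝ ∞ h1f :=
  Real.smoothTransition.contDiff.comp (contDiff_const.mul contDiff_id)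

theorem contDiff_h2f : ContDiff ℝ ∞ h2f :=
  Real.smoothTransition.contDiff.comp ((contDiff_const.mul contDiff_id).sub contDiff_const)

variable {E : Type*} [NormedAddCommGroup E] [NormedSpace ℝ E]
  {M : Type*} [MetricSpace M] [ChartedSpace E M]
  [RiemannianBundle (fun x : M => TangentSpace 𝓘(ℝ, E) x)]
  {e : ∀ x : M, TangentSpace 𝓘(ℝ, E) x → M}
  [FiniteDimensional ℝ E] [IsManifold 𝓘(ℝ, E) ∞ M]
  [IsContMDiffRiemannianBundle 𝓘(ℝ, E) ∞ E (fun x : M => TangentSpace 𝓘(ℝ, E) x)]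
  [CompactSpace M] [ConnectedSpace M] [IsRiemannianManifold 𝓘(ℝ, E) M] {D : ℝ}

variable {V : Type} [NormedAddCommGroup V] [InnerProductSpace ℝ V] [FiniteDimensional ℝ V]
  [MeasurableSpace V] [BorelSpace V] (b : OrthonormalBasis (Fin 4) ℝ V)
  (F : Facts e) (hD : 0 < D) (hB : InjGE e D) (hdiam : ∀ p q : M, dist p q ≤ D)
  (p₁ : Fr e D 3) (ν : E)

omit [FiniteDimensional ℝ E] [IsManifold 𝓘(ℝ, E) ∞ M]
  [IsContMDiffRiemannianBundle 𝓘(ℝ, E) ∞ E (fun x : M => TangentSpace 𝓘(ℝ, E) x)]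
  [CompactSpace M] [ConnectedSpace M] [IsRiemannianManifold 𝓘(ℝ, E) M] in
theorem nm_sm (x : M) (v : E) (c : ℝ) : nm x (c • v) = |c| * nm x v := by
  have key : ∀ v : TangentSpace 𝓘(ℝ, E) x, ‖c • v‖ = |c| * ‖v‖ := fun v => by
    rw [norm_smul, Real.norm_eq_abs]
  exact key v

/-- the direction at the cut point -/
structure Nu (e : ∀ x : M, TangentSpace 𝓘(ℝ, E) x → M) (D : ℝ) (p₁ : Fr e D 3) (ν : E) :
    Prop where
  unit : nm (bar e D p₁.v) ν = 1
  orth : prQ e D p₁.v ν = 0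

/-- the foot of the path -/
def fo (x : Px V) (t : ℝ) : M := gm e (vz b F hD hB hdiam p₁ x, D * h1f t)

/-- the first vector field -/
def nn (x : Px V) (t : ℝ) : E :=
  dE e (bar e D p₁.v) ((D * h1f t) • uz b F hD hB hdiam p₁ (x : V)) ν

/-- the raw vector of the path -/
def mm (x : Px V) (t : ℝ) : E :=
  (1 - h2f t) • nn b F hD hB hdiam p₁ ν x t + h2f t • vec' p₁.v

theorem fo_one (x : Px V) {t : ℝ} (ht : 1 / 3 ≤ t) : fo b F hD hB hdiam p₁ x t = foot p₁.v := by
  rw [fo, h1f_one ht, mul_one]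
  exact gm_vz_D b F hD hB hdiam p₁ x

theorem fo_zero (x : Px V) : fo b F hD hB hdiam p₁ x 0 = bar e D p₁.v := by
  rw [fo, h1f_zero, mul_zero, gm_zero F, foot_vz]

theorem nn_zero (x : Px V) : nn b F hD hB hdiam p₁ ν x 0 = ν := by
  rw [nn, h1f_zero, mul_zero, zero_smul]
  exact dE_zero_base F.isExp _ _

/-- the projection of `ν` -/
theorem Nu.prP_eq (h : Nu e D p₁ ν) (x : Px V) :
    prP e D (vz b F hD hB hdiam p₁ x) ν = 0 := by
  have h1 : prP e D (vz b F hD hB hdiam p₁ x) ν = prP e D (phi F (p₁.v, D)) ν :=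
    prP_congr (foot_vz b F hD hB hdiam p₁ x)
      ((bar_vz b F hD hB hdiam p₁ x).trans (bar_phi F hD hB hdiam p₁.v).symm) ν
  rw [h1, prP_phi F hD hB hdiam, h.orth]

theorem Nu.ne_zero {p₁ : Fr e D 3} {ν : E} (h : Nu e D p₁ ν) : ν ≠ 0 := by
  rintro rfl
  have h1 := h.unit
  have h5 : nm (E := E) (bar e D p₁.v) 0 = 0 := norm_zero
  rw [h5] at h1
  exact zero_ne_one h1

theorem nn_eq_AD (x : Px V) {t : ℝ} (ht : h1f t = 1) : D • nn b F hD hB hdiam p₁ ν x t =
    AD e D (vz b F hD hB hdiam p₁ x) ν := by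
  rw [nn, ht, mul_one]
  rfl

theorem nn_ne (h : Nu e D p₁ ν) (x : Px V) (t : ℝ) : nn b F hD hB hdiam p₁ ν x t ≠ 0 := by
  intro h0
  rcases (h1f_mem t).2.lt_or_eq with h1 | h1
  · refine h.ne_zero (dE_injective F hB (x := bar e D p₁.v) ?_ h0)
    have h2 : nm (bar e D p₁.v) ((D * h1f t) • uz b F hD hB hdiam p₁ (x : V)) =
        D * h1f t := by
      rw [nm_sm, nm_uz, mul_one, abs_of_nonneg (mul_nonneg hD.le (h1f_mem t).1)]
    rw [h2]
    nlinarith
  · have h2 := nn_eq_AD b F hD hB hdiam p₁ ν x h1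
    rw [h0, smul_zero] at h2
    have h3 := BB_AD F hD hB hdiam (vz b F hD hB hdiam p₁ x) ν
    rw [← h2, h.prP_eq, sub_zero] at h3
    have h4 : BB e D (vz b F hD hB hdiam p₁ x) 0 = 0 := by
      have h5 := BB_smul F hD hB hdiam (vz b F hD hB hdiam p₁ x) 0 0
      rwa [zero_smul, zero_smul] at h5
    rw [h4] at h3
    exact h.ne_zero h3.symm

/-- the first vector field is orthogonal to the plane at the base point -/
theorem nn_orth (h : Nu e D p₁ ν) (x : Px V) {t : ℝ} (ht : h1f t = 1) :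
    ip (foot p₁.v) (vec' p₁.v) (nn b F hD hB hdiam p₁ ν x t) = 0 := by
  set v := vz b F hD hB hdiam p₁ x with hv
  have hbar : bar e D v = foot p₁.v := bar_vz b F hD hB hdiam p₁ x
  have h1 : prQ e D v (AD e D v ν) = 0 :=
    prQ_AD_of_prP F hD hB hdiam (h.prP_eq b F hD hB hdiam p₁ ν x)
  have h2 : prQ e D v (vec' p₁.v) = vec' p₁.v := by
    rw [← prP_phi F hD hB hdiam]
    have h3 : prP e D (phi F (v, D)) (vec' p₁.v) = prP e D p₁.v (vec' p₁.v) :=
      prP_congr (show foot (phi F (v, D)) = foot p₁.v from hbar)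
        ((bar_phi F hD hB hdiam v).trans (foot_vz b F hD hB hdiam p₁ x)) _
    rw [h3]
    exact prP_of_mem (self_mem_Pl D p₁.v)
  have h4 : ip (bar e D v) (vec' p₁.v) (AD e D v ν) = 0 := by
    rw [← h2, ip_prQ, h1]
    exact inner_zero_right (𝕜 := ℝ) (E := TangentSpace 𝓘(ℝ, E) (bar e D v)) _
  rw [hbar, ← nn_eq_AD b F hD hB hdiam p₁ ν x ht, ip_smul_right'] at h4
  exact (mul_eq_zero.1 h4).resolve_left hD.ne'

theorem mm_ne (h : Nu e D p₁ ν) (x : Px V) (t : ℝ) : mm b F hD hB hdiam p₁ ν x t ≠ 0 := by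
  intro h0
  rcases le_or_gt t (2 / 3) with ht | ht
  · rw [mm, h2f_zero ht, sub_zero, one_smul, zero_smul, add_zero] at h0
    exact nn_ne b F hD hB hdiam p₁ ν h x t h0
  · have h1 : h1f t = 1 := h1f_one (by linarith)
    have h2 : ip (foot p₁.v) (vec' p₁.v) (mm b F hD hB hdiam p₁ ν x t) = h2f t := by
      rw [mm, ip_add_right', ip_smul_right', ip_smul_right',
        nn_orth b F hD hB hdiam p₁ ν h x h1, ip_vec', mul_zero, mul_one, zero_add]
    have h3 : ip (foot p₁.v) (vec' p₁.v) (0 : E) = 0 :=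
      inner_zero_right (𝕜 := ℝ) (E := TangentSpace 𝓘(ℝ, E) (foot p₁.v)) _
    rw [h0, h3] at h2
    rw [mm, ← h2, sub_zero, one_smul, zero_smul, add_zero] at h0
    exact nn_ne b F hD hB hdiam p₁ ν h x t h0

/-- the tangent vector of the path -/
def mt' (x : Px V) (t : ℝ) : TangentSpace 𝓘(ℝ, E) (fo b F hD hB hdiam p₁ x t) :=
  mm (E := E) b F hD hB hdiam p₁ ν x t

/-- the unit tangent vector of the path -/
def mu (x : Px V) (t : ℝ) : TangentSpace 𝓘(ℝ, E) (fo b F hD hB hdiam p₁ x t) :=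
  ‖mt' b F hD hB hdiam p₁ ν x t‖⁻¹ • mt' b F hD hB hdiam p₁ ν x t

variable {ν}

theorem norm_mu (h : Nu e D p₁ ν) (x : Px V) (t : ℝ) : ‖mu b F hD hB hdiam p₁ ν x t‖ = 1 := by
  have h1 : mt' b F hD hB hdiam p₁ ν x t ≠ 0 := mm_ne b F hD hB hdiam p₁ ν h x t
  rw [mu, norm_smul, norm_inv, norm_norm, inv_mul_cancel₀ (norm_ne_zero_iff.2 h1)]

/-- **the path** -/
def pa (h : Nu e D p₁ ν) (x : Px V) (t : ℝ) : UT E M :=
  W.mk (E := E) (fo b F hD hB hdiam p₁ x t) (mu (E := E) b F hD hB hdiam p₁ ν x t)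
    (norm_mu b F hD hB hdiam p₁ h x t)

@[simp] theorem foot_pa (h : Nu e D p₁ ν) (x : Px V) (t : ℝ) :
    foot (pa b F hD hB hdiam p₁ h x t) = fo b F hD hB hdiam p₁ x t := rfl

theorem vec'_pa (h : Nu e D p₁ ν) (x : Px V) (t : ℝ) :
    (vec' (pa b F hD hB hdiam p₁ h x t) : E) =
      (nm (fo b F hD hB hdiam p₁ x t) (mm b F hD hB hdiam p₁ ν x t))⁻¹ •
        mm b F hD hB hdiam p₁ ν x t := rfl

theorem pa_zero (h : Nu e D p₁ ν) (x : Px V) :
    pa b F hD hB hdiam p₁ h x 0 = W.mk (E := E) (bar e D p₁.v) ν h.unit := by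
  refine mk_congr (fo_zero b F hD hB hdiam p₁ x) ?_
  change (nm (fo b F hD hB hdiam p₁ x 0) (mm b F hD hB hdiam p₁ ν x 0))⁻¹ •
        mm b F hD hB hdiam p₁ ν x 0 = ν
  have h1 : mm b F hD hB hdiam p₁ ν x 0 = ν := by
    rw [mm, h2f_zero (by norm_num), sub_zero, one_smul, zero_smul, add_zero, nn_zero]
  rw [h1, fo_zero, h.unit, inv_one, one_smul]

theorem pa_one (h : Nu e D p₁ ν) (x : Px V) : pa b F hD hB hdiam p₁ h x 1 = p₁.v := by
  rw [← mk_eta p₁.v]
  refine mk_congr (fo_one b F hD hB hdiam p₁ x (by norm_num)) ?_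
  change (nm (fo b F hD hB hdiam p₁ x 1) (mm b F hD hB hdiam p₁ ν x 1))⁻¹ •
        mm b F hD hB hdiam p₁ ν x 1 = vec' p₁.v
  have h1 : mm b F hD hB hdiam p₁ ν x 1 = vec' p₁.v := by
    rw [mm, h2f_one, sub_self, one_smul, zero_smul, zero_add]
  rw [h1, fo_one b F hD hB hdiam p₁ x (by norm_num), nm_vec', inv_one, one_smul]

/-- homogeneity -/
theorem xi_hom (x : V) {c : ℝ} (hc : 0 < c) : xi b (c • x) = xi b x := by
  rw [xi, xi, norm_smul, Real.norm_of_nonneg hc.le, map_smul, smul_smul]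
  congr 1
  rcases eq_or_ne ‖x‖ 0 with h0 | h0
  · rw [h0]
    simp
  · field_simp

theorem pa_hom (h : Nu e D p₁ ν) {x y : Px V} {c : ℝ} (hc : 0 < c) (hy : (y : V) = c • (x : V))
    (t : ℝ) : pa b F hD hB hdiam p₁ h y t = pa b F hD hB hdiam p₁ h x t := by
  have h1 : uz b F hD hB hdiam p₁ (y : V) = uz b F hD hB hdiam p₁ (x : V) := by
    rw [uz, uz, hy, xi_hom b _ hc]
  have h2 : vz b F hD hB hdiam p₁ y = vz b F hD hB hdiam p₁ x := mk_congr rfl h1
  have h3 : fo b F hD hB hdiam p₁ y t = fo b F hD hB hdiam p₁ x t := by rw [fo, fo, h2]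
  have h4 : mm b F hD hB hdiam p₁ ν y t = mm b F hD hB hdiam p₁ ν x t := by
    rw [mm, mm, nn, nn, h1]
  refine mk_congr h3 ?_
  change (nm (fo b F hD hB hdiam p₁ y t) (mm b F hD hB hdiam p₁ ν y t))⁻¹ •
        mm b F hD hB hdiam p₁ ν y t = (nm (fo b F hD hB hdiam p₁ x t)
          (mm b F hD hB hdiam p₁ ν x t))⁻¹ • mm b F hD hB hdiam p₁ ν x t
  rw [h3, h4]

section Smooth

variable {E' : Type} [NormedAddCommGroup E'] [NormedSpace ℝ E'] [FiniteDimensional ℝ E']

/-- the unit vectors at the cut point, as tangent vectors -/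
def uT (x : V) : TangentSpace 𝓘(ℝ, E) (bar e D p₁.v) := uz (E := E) b F hD hB hdiam p₁ x

theorem contDiffAt_uT {x : V} (hx : x ≠ 0) : ContDiffAt ℝ ∞ (uT b F hD hB hdiam p₁) x := by
  let w' : Fin 4 → TangentSpace 𝓘(ℝ, E) (bar e D p₁.v) := fun i => tau (E := E) F hD hB hdiam p₁ i
  have h5 : ContDiffAt ℝ ∞ (fun y => ∑ i, xi b y i • w' i) x :=
    ContDiffAt.sum fun i _ => (contDiffAt_pi.1 (contDiffAt_xi b hx) i).smul contDiffAt_const
  exact h5

/-- **the path is smooth** -/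
theorem map_pa (h : Nu e D p₁ ν) : ((dPx V).prod (Dif.lin ℝ)).Map (dUT E M)
    (fun q => pa b F hD hB hdiam p₁ h q.1 q.2) := by
  intro E' _ _ _ q s₀ hq
  have hx : Sm (fun s => ((q s).1 : V)) s₀ := hq.1
  have ht : Sm (fun s => (q s).2) s₀ := hq.2
  let z : M := bar e D p₁.v
  -- the first field
  have h1 : ∀ᶠ s in 𝓝 s₀, SmV (fun _ : E' => z)
      (fun s => (D * h1f (q s).2) • uT b F hD hB hdiam p₁ ((q s).1 : V)) s := by
    filter_upwards [hx, ht] with s g1 g2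
    refine smV_const z (ContDiffAt.smul ?_ ?_)
    · exact contDiffAt_const.mul (contDiff_h1f.contDiffAt.comp s g2)
    · exact (contDiffAt_uT b F hD hB hdiam p₁ (q s).1.2).comp s g1
  have h2 : ∀ᶠ s in 𝓝 s₀, SmV (fun _ : E' => z)
      (fun s => (ν : TangentSpace 𝓘(ℝ, E) z)) s :=
    Eventually.of_forall fun s => smV_const z contDiffAt_const
  have h3 : ∀ᶠ s in 𝓝 s₀, SmV (fun s => fo b F hD hB hdiam p₁ (q s).1 (q s).2)
      (fun s => (nn (E := E) b F hD hB hdiam p₁ ν (q s).1 (q s).2 :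
        TangentSpace 𝓘(ℝ, E) (fo b F hD hB hdiam p₁ (q s).1 (q s).2))) s := by
    filter_upwards [eventually_eventually_nhds.2 h1, eventually_eventually_nhds.2 h2] with s g1 g2
    exact H583.smV_dE F.isExp g1 g2
  have htc : ContinuousAt (fun s => (q s).2) s₀ := ht.continuousAt
  have hfoot : ∀ᶠ s in 𝓝 s₀, ContMDiffAt 𝓘(ℝ, E') 𝓘(ℝ, E) ∞
      (fun s => fo b F hD hB hdiam p₁ (q s).1 (q s).2) s := by
    filter_upwards [h3] with s g1 using g1.base
  have h4 : ∀ᶠ s in 𝓝 s₀, SmV (fun s => fo b F hD hB hdiam p₁ (q s).1 (q s).2)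
      (fun s => mt' b F hD hB hdiam p₁ ν (q s).1 (q s).2) s := by
    rcases lt_or_ge (q s₀).2 (2 / 3) with hlt | hge
    · have g0 := eventually_eventually_nhds.2 (htc.eventually (gt_mem_nhds hlt))
      filter_upwards [h3, g0] with s g1 g2
      refine g1.congr ?_
      filter_upwards [g2] with s' hs'
      have e1 : mm b F hD hB hdiam p₁ ν (q s').1 (q s').2 =
          nn b F hD hB hdiam p₁ ν (q s').1 (q s').2 := by
        rw [mm, h2f_zero hs'.le, sub_zero, one_smul, zero_smul, add_zero]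
      exact e1.symm
    · have hgt : 1 / 3 < (q s₀).2 := by linarith
      have g0 := eventually_eventually_nhds.2 (htc.eventually (lt_mem_nhds hgt))
      filter_upwards [h3, g0, ht, hfoot] with s g1 g2 g3 g4
      have k1 : SmV (fun s => fo b F hD hB hdiam p₁ (q s).1 (q s).2)
          (fun s => (vec' (E := E) p₁.v :
            TangentSpace 𝓘(ℝ, E) (fo b F hD hB hdiam p₁ (q s).1 (q s).2))) s := by
        have k2 : SmV (fun _ : E' => foot p₁.v)
            (fun _ => (vec' (E := E) p₁.v : TangentSpace 𝓘(ℝ, E) (foot p₁.v))) s :=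
          smV_const _ contDiffAt_const
        refine ContMDiffAt.congr_of_eventuallyEq k2 ?_
        filter_upwards [g2] with s' hs'
        exact tb_congr (fo_one b F hD hB hdiam p₁ _ (le_of_lt hs')) rfl
      have k3 : ContDiffAt ℝ ∞ (fun s => h2f (q s).2) s := contDiff_h2f.contDiffAt.comp s g3
      have k4 := (SmV.smul (contDiffAt_const.sub k3 :
        ContDiffAt ℝ ∞ (fun s => 1 - h2f (q s).2) s) g1).add (SmV.smul k3 k1)
      exact k4
  rw [at_iff]
  filter_upwards [h4] with s g1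
  exact WF.smV_normalize g1 (mm_ne b F hD hB hdiam p₁ ν h _ _)

end Smooth

end

end Vale.Agent.P231.H649
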