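import Vale.Agent.P231.H649.CZ4
import Vale.Agent.P231.S2I.Px

/-!
# P231, S2-I (I7): the homotopy
-/

set_option maxSynthPendingDepth 3
set_option linter.unusedSectionVars false
set_option linter.unusedVariables false

open Bundle Manifold Set Filter Module MeasureTheory
open scoped ContDiff Manifold Topology

namespace Vale.Agent.P231.H649

noncomputable section

open Vale.Agent.P234 Vale.Agent.P231 Vale.Agent.P231.Fm Vale.Agent.P231.W Vale.Agent.P231.WR
open Vale.Agent.P231.S2I3 Vale.Agent.P231.S2I Vale.Agent.P231.H584 Vale.Agent.P231.H775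

variable {E : Type*} [NormedAddCommGroup E] [NormedSpace ℝ E]
  {M : Type*} [MetricSpace M] [ChartedSpace E M]
  [RiemannianBundle (fun x : M => TangentSpace 𝓘(ℝ, E) x)]
  {e : ∀ x : M, TangentSpace 𝓘(ℝ, E) x → M}
  [FiniteDimensional ℝ E] [IsManifold 𝓘(ℝ, E) ∞ M]
  [IsContMDiffRiemannianBundle 𝓘(ℝ, E) ∞ E (fun x : M => TangentSpace 𝓘(ℝ, E) x)]
  [CompactSpace M] [ConnectedSpace M] [IsRiemannianManifold 𝓘(ℝ, E) M] {D : ℝ}

variable {V : Type} [NormedAddCommGroup V] [InnerProductSpace ℝ V] [FiniteDimensional ℝ V]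
  [MeasurableSpace V] [BorelSpace V] (b : OrthonormalBasis (Fin 4) ℝ V)
  (F : Facts e) (hD : 0 < D) (hB : InjGE e D) (hdiam : ∀ p q : M, dist p q ≤ D)

/-- directions orthogonal to the plane of the cut pair -/
theorem exists_nu (hP : ∀ x y : M, dist x y = D → finrank ℝ (H775.Pl e D x y) = 3 + 1)
    (hdim : 4 < finrank ℝ E) (F : Facts e) (hD : 0 < D) (hB : InjGE e D) (p₁ : Fr e D 3) :
    ∃ ν : E, Nu e D p₁ ν := by
  set K := H775.Pl e D (foot p₁.v) (bar e D p₁.v) with hK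
  have hd : dist (foot p₁.v) (bar e D p₁.v) = D := (dist_comm _ _).trans (dist_bar' F hD hB p₁.v)
  have h1 : finrank ℝ K = 3 + 1 := hP _ _ hd
  have h2 : finrank ℝ K + finrank ℝ Kᗮ = finrank ℝ (TangentSpace 𝓘(ℝ, E) (bar e D p₁.v)) :=
    Submodule.finrank_add_finrank_orthogonal K
  have h3 : finrank ℝ (TangentSpace 𝓘(ℝ, E) (bar e D p₁.v)) = finrank ℝ E := rfl
  have h4 : 0 < finrank ℝ Kᗮ := by omega
  have : Nontrivial Kᗮ := nontrivial_of_finrank_pos h4
  obtain ⟨u, hu⟩ := exists_norm_eq Kᗮ zero_le_one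
  refine ⟨(u : TangentSpace 𝓘(ℝ, E) (bar e D p₁.v)), ?_, ?_⟩
  · exact hu
  · exact prQ_eq_zero_iff.2 u.2

/-- the time function -/
def bet (D : ℝ) (t : ℝ) : ℝ := D - D * h1f (1 - Real.smoothTransition (1 - t))

theorem bet_zero : bet D 0 = D := by
  rw [bet, sub_zero, Real.smoothTransition.one, sub_self, h1f_zero, mul_zero, sub_zero]

theorem bet_one : bet D 1 = 0 := by
  rw [bet, sub_self, Real.smoothTransition.zero, sub_zero, h1f_one (by norm_num), mul_one,
    sub_self]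

theorem contDiff_bet : ContDiff ℝ ∞ (bet D) :=
  contDiff_const.sub (contDiff_const.mul (contDiff_h1f.comp (contDiff_const.sub
    (Real.smoothTransition.contDiff.comp (contDiff_const.sub contDiff_id)))))

/-- the foot of the path -/
theorem fo_eq (p₁ : Fr e D 3) (x : Px V) (t : ℝ) :
    fo b F hD hB hdiam p₁ x (1 - Real.smoothTransition (1 - t)) =
      gm e (vs b p₁ x, bet D t) := by
  rw [fo, gm_vz]
  rfl

theorem N3_of {y : Fin 3 → ℝ} (h : n3 y = 1) : N3 y = y := by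
  rw [N3, h, Real.sqrt_one, inv_one, one_smul]

variable [Nontrivial V]

include F hD hB hdiam in
/-- **the homotopy** -/
theorem exists_hatC (hP : ∀ x y : M, dist x y = D → finrank ℝ (H775.Pl e D x y) = 3 + 1)
    (p₁ : Fr e D 3) {ν : E} (hν : Nu e D p₁ ν) :
    ∃ (p₀ : Fr e D 3) (C : V × ℝ → Pr e D) (G : V → M3) (z₀ : Pr e D), p₀.v = p₁.v ∧
      RotMap G ∧ ((dP V).prod (Dif.lin ℝ)).Map (dPr e D) C ∧ (∀ x ≠ 0, C (x, 0) = z₀) ∧
      (∀ x ≠ 0, C (x, 1) = sg F hD hB hdiam p₀ (fun i => G x i 0)) ∧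
      ∀ x s, foot (C (x, s)).v = gm e (vs b p₁ (ret x), bet D s) := by
  obtain ⟨W₀, hW₀⟩ := exists_isLF F hD hB hdiam hP (W.mk (E := E) (bar e D p₁.v) ν hν.unit)
  set pz : Fr e D 3 := Fr.mk' _ W₀ hW₀ with hpz
  have hpm : ((dPx V).prod (Dif.lin ℝ)).Map (dUT E M)
    (fun q => pa b F hD hB hdiam p₁ hν q.1 q.2) := map_pa b F hD hB hdiam p₁ hν
  have hcm : ((dPx V).prod (Dif.lin ℝ)).Map (dUT E M)
      (fun q : Px V × ℝ => pa b F hD hB hdiam p₁ hν q.1 (1 - q.2)) := by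
    intro E' _ _ _ u x hu
    refine hpm (u := fun s => ((u s).1, 1 - (u s).2)) ⟨hu.1, ?_⟩
    have h1 : Sm (fun s => (u s).2) x := hu.2
    have h2 : Sm (fun s => (1 : ℝ) - (u s).2) x := by
      filter_upwards [h1] with s hs using contDiffAt_const.sub hs
    exact h2
  have hjm : (dPx V).Map (dFr e D 3) (fun _ : Px V => pz) := by
    intro E' _ _ _ u x hu
    exact ⟨H583.at_const pz.v x, fun i => H583.at_const (pz.w i) x⟩
  obtain ⟨C', hC', hC1, hCv, hCc⟩ := exists_lift F hD hB hdiam hP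
    (c := fun q : Px V × ℝ => pa b F hD hB hdiam p₁ hν q.1 (1 - q.2)) (j := fun _ : Px V => pz)
    hcm hjm (fun x => by
      change pz.v = pa b F hD hB hdiam p₁ hν x (1 - 1)
      rw [sub_self, pa_zero]
      rfl) (isCompact_sphere (0 : V) 1) (κ := ret) (fun z hz => at_ret (by
      intro h0
      rw [h0] at hz
      simp at hz)) (fun x => by
      have hxn : 0 < ‖(x : V)‖ := norm_pos_iff.2 x.2
      have hne : ‖(x : V)‖⁻¹ • (x : V) ≠ 0 := smul_ne_zero (inv_pos.2 hxn).ne' x.2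
      refine ⟨‖(x : V)‖⁻¹ • (x : V), ?_, fun t _ => ?_⟩
      · rw [mem_sphere_zero_iff_norm, norm_smul, norm_inv, norm_norm, inv_mul_cancel₀ hxn.ne']
      · exact (pa_hom b F hD hB hdiam p₁ hν (inv_pos.2 hxn) (ret_val hne) _).symm)
  have hhom : ∀ x y : Px V, ∀ c : ℝ, 0 < c → (y : V) = c • (x : V) → ∀ s, C' (y, s) = C' (x, s) :=
    fun x y c hc hxy s => hCc y x (fun t => pa_hom b F hD hB hdiam p₁ hν hc hxy _) rfl s
  have hv1 : ∀ x : Px V, (C' (x, 0)).v = p₁.v := fun x => by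
    rw [hCv x 0]
    change pa b F hD hB hdiam p₁ hν x (1 - Real.smoothTransition 0) = p₁.v
    rw [Real.smoothTransition.zero, sub_zero, pa_one]
  have hfin : finrank ℝ V = 4 := by rw [finrank_eq_card_basis b.toBasis, Fintype.card_fin]
  obtain ⟨p₀, hp₀, hG, hGw⟩ := exists_rotMap F hD hB hdiam hP (j := fun x => C' (x, 0))
    (fun h => map_at hC' 0 h) (fun x y c hc hxy => hhom x y c hc hxy 0) hv1 (by omega)
  refine ⟨p₀, fun q => (C' (ret q.1, 1 - q.2)).pr 0, _, pz.pr 0, hp₀, hG, ?_, ?_, ?_, ?_⟩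
  · intro E' _ _ _ u x hu
    refine map_Frpr 0 (hC' (u := fun s => (ret (u s).1, 1 - (u s).2)) ⟨map_ret hu.1, ?_⟩)
    have h1 : Sm (fun s => (u s).2) x := hu.2
    have h2 : Sm (fun s => (1 : ℝ) - (u s).2) x := by
      filter_upwards [h1] with s hs using contDiffAt_const.sub hs
    exact h2
  · intro x hx
    beta_reduce
    rw [sub_zero, hC1]
  · intro x hx
    beta_reduce
    rw [sub_self]
    have hn : n3 (fun i => mt p₀ (C' (ret x, 0)) i 0) = 1 := by
      have h1 := (hG.so x hx).orth 0 0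
      rw [n3]
      simp at h1
      linarith
    have hne : (fun i => mt p₀ (C' (ret x, 0)) i 0) ≠ 0 := n3_ne hn
    rw [sg_pos F hD hB hdiam p₀ hne]
    refine Pr.ext' ?_ ?_
    · change (C' (ret x, 0)).v = p₀.v
      rw [hv1, hp₀]
    · change (C' (ret x, 0)).w 0 = W.mk (E := E) _ _ _
      rw [← mk_eta ((C' (ret x, 0)).w 0)]
      refine mk_congr ?_ ?_
      · rw [Fr.foot_w, hv1, hp₀]
      · rw [hGw (ret x) 0, sgr, N3_of hn, ret_coe]
  · intro x s
    rw [Fr.pr_v, hCv]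
    rw [foot_pa, fo_eq]

end

end Vale.Agent.P231.H649
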