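import Vale.Agent.P231.H649.CZ5
import Vale.Agent.P231.H766.Stk
import Vale.Agent.P231.WR.Th
import Vale.Agent.P231.S2II.B0
import Vale.Agent.P231.S2I.DegC

/-!
# P231, S2-I (I7): the constant `c` of the relation `y² + z² = 2 c (x₁ + x₂)` is an integer
-/

set_option maxSynthPendingDepth 3
set_option linter.unusedSectionVars false
set_option linter.unusedVariables false

open Bundle Manifold Set Filter Module MeasureTheory
open scoped ContDiff Manifold Topology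

namespace Vale.Agent.P231.H649

noncomputable section

open Vale.Agent.P234 Vale.Agent.P231 Vale.Agent.P231.Fm Vale.Agent.P231.W Vale.Agent.P231.WR
open Vale.Agent.P231.S2I3 Vale.Agent.P231.S2I Vale.Agent.P231.H584 Vale.Agent.P231.H775

variable {E : Type*} [NormedAddCommGroup E] [NormedSpace ℝ E]
  {M : Type*} [MetricSpace M] [ChartedSpace E M]
  [RiemannianBundle (fun x : M => TangentSpace 𝓘(ℝ, E) x)]
  {e : ∀ x : M, TangentSpace 𝓘(ℝ, E) x → M}
  [FiniteDimensional ℝ E] [IsManifold 𝓘(ℝ, E) ∞ M]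
  [IsContMDiffRiemannianBundle 𝓘(ℝ, E) ∞ E (fun x : M => TangentSpace 𝓘(ℝ, E) x)]
  [CompactSpace M] [ConnectedSpace M] [IsRiemannianManifold 𝓘(ℝ, E) M] {D : ℝ}

section Eval

variable {V : Type} [NormedAddCommGroup V] [InnerProductSpace ℝ V] [FiniteDimensional ℝ V]
  [MeasurableSpace V] [BorelSpace V] [Nontrivial V] (b : OrthonormalBasis (Fin 4) ℝ V)
  (F : Facts e)

/-- the sphere of directions, as a map of the punctured space -/
theorem map_vs (p₁ : Fr e D 3) : (dP V).Map (dUT E M) (fun x => vs b p₁ (ret x)) := by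
  intro E' _ _ _ u x h
  have h1 : Sm u x := h.1
  have h2 : ∀ᶠ y in 𝓝 x, u y ≠ 0 := h.2
  let w' : Fin 4 → TangentSpace 𝓘(ℝ, E) (foot p₁.v) := fun i => eps (E := E) p₁ i
  refine at_sphere (p := foot p₁.v) (u := fun y => ∑ i, xi b (u y) i • w' i) ?_ ?_
  · filter_upwards [h1, h2] with y e1 e2
    have h5 : ContDiffAt ℝ ∞ (fun y => ∑ i, xi b (u y) i • w' i) y :=
      ContDiffAt.sum fun i _ => (((contDiffAt_pi.1 (contDiffAt_xi b e2) i)).comp y e1).smul
        contDiffAt_const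
    exact h5
  · filter_upwards [h2] with y e2
    refine ⟨rfl, ?_⟩
    have h6 : vec' (vs b p₁ (ret (u y))) = ur b p₁ (u y) := by
      rw [vec'_vs, ret_val e2]
    exact h6

theorem map_fv : (dPr e D).Map (dM E M) (fun q => foot q.v) := fun h => map_foot (map_v h)

/-- the integral over the path of geodesics -/
theorem K_geo {C : V × ℝ → Pr e D} (hC : ((dP V).prod (Dif.lin ℝ)).Map (dPr e D) C)
    (p₁ : Fr e D 3) (hf : ∀ x s, foot (C (x, s)).v = gm e (vs b p₁ (ret x), bet D s))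
    (Om : Form (dM E M)) :
    Form.K (Form.pull C hC (Form.pull (fun q : Pr e D => foot q.v) map_fv Om)) =
      -Form.pull (fun x => vs b p₁ (ret x)) (map_vs b p₁) (WR.B0 F D Om) := by
  have hv : (dP V).Map (dUT E M) (fun x => vs b p₁ (ret x)) := map_vs (V := V) b p₁
  have h1 : ((dP V).prod (Dif.lin ℝ)).Map (dM E M) (fun q => foot (C q).v) :=
    fun h => map_fv (hC h)
  have h2 : ((dP V).prod (Dif.lin ℝ)).Map ((dUT E M).prod (Dif.lin ℝ))
      (fun q : V × ℝ => (vs b p₁ (ret q.1), q.2)) := map_cyl hv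
  have h3 : ((dP V).prod (Dif.lin ℝ)).Map (dM E M)
      (fun q : V × ℝ => gm e (vs b p₁ (ret q.1), q.2)) := fun h => map_gm F (h2 h)
  have e1 : Form.pull C hC (Form.pull (fun q : Pr e D => foot q.v) map_fv Om) =
      Form.pull (fun p : V × ℝ => (p.1, bet D p.2)) (H766.map_rep contDiff_bet)
        (Form.pull (fun q : V × ℝ => (vs b p₁ (ret q.1), q.2)) h2
          (Form.pull (gm e) (map_gm F) Om)) := by
    have e2 : Form.pull C hC (Form.pull (fun q : Pr e D => foot q.v) map_fv Om) =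
        Form.pull (fun q => foot (C q).v) h1 Om :=
      H584.pull_pull (k := fun q => foot (C q).v) hC map_fv h1 (fun q => rfl) Om
    have e3 : Form.pull (fun q : V × ℝ => (vs b p₁ (ret q.1), q.2)) h2
          (Form.pull (gm e) (map_gm F) Om) =
        Form.pull (fun q : V × ℝ => gm e (vs b p₁ (ret q.1), q.2)) h3 Om :=
      H584.pull_pull (k := fun q : V × ℝ => gm e (vs b p₁ (ret q.1), q.2)) h2 (map_gm F) h3
        (fun q => rfl) Om
    have e4 : Form.pull (fun p : V × ℝ => (p.1, bet D p.2)) (H766.map_rep contDiff_bet)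
        (Form.pull (fun q : V × ℝ => gm e (vs b p₁ (ret q.1), q.2)) h3 Om) =
        Form.pull (fun q => foot (C q).v) h1 Om :=
      H584.pull_pull (k := fun q => foot (C q).v) (H766.map_rep contDiff_bet) h3 h1
        (fun q => (hf q.1 q.2).symm) Om
    rw [e2, e3, e4]
  rw [e1]
  refine Form.ext_val fun E' _ _ _ u x h => ?_
  rw [H766.K_rep_val contDiff_bet _ h, Form.neg_val, WR.B0, WR.KT_nat, KT_val _ _ h, bet_zero,
    bet_one, intervalIntegral.integral_symm]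

/-- the integral of the solid angle form over the sphere of directions -/
theorem JS_B0 {B0 : Form (dUT E M)} (p₁ : Fr e D 3) {c0 : ℝ}
    (hf : FibVal B0 (foot p₁.v) (eps p₁) c0) :
    JS b (cut_ru b) (Form.pull (fun x => vs b p₁ (ret x)) (map_vs b p₁) B0) =
      c0 * (2 * Real.pi ^ 2) := by
  rw [JS_apply, ← IS_xi b, ← IS.smul]
  refine IS.congr volume b (cut_ru b) fun x hx => ?_
  rw [Form.pull_val _ _ (at_id hx)]
  refine hf (ξ := xi b) ?_ ?_
  · filter_upwards [isOpen_ne.mem_nhds hx] with y hy using contDiffAt_xi b hy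
  · filter_upwards [isOpen_ne.mem_nhds hx] with y hy
    refine ⟨rfl, ?_⟩
    change vec' (vs b p₁ (ret y)) = _
    rw [vec'_vs, ur, ret_val hy]

end Eval

section Main

variable (F : Facts e) (hD : 0 < D) (hB : InjGE e D) (hdiam : ∀ p q : M, dist p q ≤ D)

theorem map_bv (F : Facts e) : (dPr e D).Map (dM E M) (fun q => bar e D q.v) :=
  fun h => map_bar F D (map_v h)

/-- the final arithmetic -/
theorem int_of {c κ c0 c1 : ℝ} {H : ℤ} (hκ : κ ≠ 0) (h0 : |c0| * (2 * Real.pi ^ 2) = |κ|)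
    (h1 : |c1| * (2 * Real.pi ^ 2) = |κ|)
    (hH : (κ⁻¹ * (c0 * (4 * Real.pi ^ 2))) ^ 2 * H =
      (2 * (2 * c)) * (κ⁻¹ * (-(c1 * (2 * Real.pi ^ 2))))) : ∃ n : ℤ, c = n := by
  have hpi : 0 < 2 * Real.pi ^ 2 := by positivity
  have e0 : (κ⁻¹ * (c0 * (4 * Real.pi ^ 2))) ^ 2 = 4 := by
    have h2 : (κ⁻¹ * (c0 * (4 * Real.pi ^ 2))) ^ 2 =
        4 * (|c0| * (2 * Real.pi ^ 2)) ^ 2 / κ ^ 2 := by
      rw [mul_pow |c0|, sq_abs]
      field_simp
      ring
    rw [h2, h0, sq_abs]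
    field_simp
  have e1 : (κ⁻¹ * (-(c1 * (2 * Real.pi ^ 2)))) ^ 2 = 1 := by
    have h2 : (κ⁻¹ * (-(c1 * (2 * Real.pi ^ 2)))) ^ 2 =
        (|c1| * (2 * Real.pi ^ 2)) ^ 2 / κ ^ 2 := by
      rw [mul_pow |c1|, sq_abs]
      field_simp
    rw [h2, h1, sq_abs]
    field_simp
  rw [e0] at hH
  rcases eq_or_eq_neg_of_sq_eq_sq (κ⁻¹ * (-(c1 * (2 * Real.pi ^ 2)))) 1
    (by rw [e1]; norm_num) with h | h
  · exact ⟨H, by rw [h] at hH; linarith⟩
  · exact ⟨-H, by rw [h] at hH; push_cast; linarith⟩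

include hD hB hdiam in
/-- **(I7)** the constant `c` is an integer -/
theorem c_int (hP : ∀ x y : M, dist x y = D → finrank ℝ (H775.Pl e D x y) = 3 + 1)
    (hdim : 4 < finrank ℝ E) {p : M} {Om : Form (dM E M)} (hOd : Om.d = 0)
    (hO4 : Form.IsDeg 4 Om) {κ : ℝ} (hκ : κ ≠ 0)
    (hfib : ∀ p₀ : Fr e D 3, foot p₀.v = p → ∃ c0 : ℝ, |c0| * (2 * Real.pi ^ 2) = |κ| ∧
      FibVal (WR.B0 F D Om) p (eps p₀) c0)
    {c : ℝ} {Λ : Form (dPr e D)}
    (hrel : (κ⁻¹ • L3.b0P F hD hB hdiam Om) * (κ⁻¹ • L3.b0P F hD hB hdiam Om) =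
      (2 * c) • (κ⁻¹ • Form.pull (fun q : Pr e D => bar e D q.v) (map_bv F) Om +
        κ⁻¹ • Form.pull (fun q : Pr e D => foot q.v) map_fv Om) + Λ.d) :
    ∃ n : ℤ, c = n := by
  -- the frame at the base point
  obtain ⟨u, hu⟩ : ∃ u : TangentSpace 𝓘(ℝ, E) p, ‖u‖ = 1 := by
    have h3 : 0 < finrank ℝ (TangentSpace 𝓘(ℝ, E) p) := by
      have : finrank ℝ (TangentSpace 𝓘(ℝ, E) p) = finrank ℝ E := rfl
      omega
    have : Nontrivial (TangentSpace 𝓘(ℝ, E) p) := Module.nontrivial_of_finrank_pos h3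
    exact exists_norm_eq _ zero_le_one
  obtain ⟨W₀, hW₀⟩ := exists_isLF F hD hB hdiam hP (W.mk (E := E) p u hu)
  set p₁ : Fr e D 3 := Fr.mk' _ W₀ hW₀ with hp₁
  have hfp : foot p₁.v = p := rfl
  obtain ⟨ν, hν⟩ := exists_nu (D := D) hP hdim F hD hB p₁
  let V := EuclideanSpace ℝ (Fin 4)
  let b : OrthonormalBasis (Fin 4) ℝ V := EuclideanSpace.basisFun (Fin 4) ℝ
  obtain ⟨p₀, C, G, z₀, hp₀, hG, hC, hC0, hC1, hCf⟩ := exists_hatC b F hD hB hdiam hP p₁ hν
  obtain ⟨c1, hc1, hf1⟩ := hfib p₁ hfp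
  obtain ⟨c0, hc0, hf0⟩ := hfib p₀ (by rw [hp₀, hfp])
  -- the form `z`
  set z := κ⁻¹ • L3.b0P F hD hB hdiam Om with hz
  have hzd : z.d = 0 := by rw [hz, Form.d_smul, S2II.b0P_d F hD hB hdiam hOd, smul_zero]
  have hz2 : WF.IsDeg z 2 := by
    have h1 := S2II.b0P_isDeg F hD hB hdiam (l := 3) (by norm_num) hO4
    have h2 : Form.IsDeg 2 z := h1.smul _
    have h3 : WF.IsDeg z 2 ↔ Form.IsDeg 2 z := DegC.wf_iff
    rw [h3]
    exact h2
  set x₂ := Form.pull (fun q : Pr e D => foot q.v) map_fv Om with hx₂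
  set x₁ := Form.pull (fun q : Pr e D => bar e D q.v) (map_bv F) Om with hx₁
  have hdiff : x₁ = x₂ + (Form.pull Pr.v map_v (WR.B0 F D Om)).d := by
    rw [← Form.pull_d, S2II.B0_d F hOd, S2I.pull_sub']
    have h1 : Form.pull Pr.v map_v (Form.pull (bar e D) (map_bar F D) Om) = x₁ :=
      H584.pull_pull (k := fun q : Pr e D => bar e D q.v) map_v (map_bar F D) (map_bv F)
        (fun q => rfl) Om
    have h2 : Form.pull Pr.v map_v (Form.pull foot map_foot Om) = x₂ :=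
      H584.pull_pull (k := fun q : Pr e D => foot q.v) map_v map_foot map_fv (fun q => rfl) Om
    rw [h1, h2]
    abel
  have hrel' : z * z = (2 * (2 * c)) • (κ⁻¹ • x₂) +
      ((2 * c * κ⁻¹) • Form.pull Pr.v map_v (WR.B0 F D Om) + Λ).d := by
    rw [hrel, hdiff, Form.d_add, Form.d_smul]
    module
  have hσz : ∀ y ≠ 0, z.val (sg F hD hB hdiam p₀) y = (κ⁻¹ * (c0 * (4 * Real.pi ^ 2))) • om y := by
    intro y hy
    have h1 := J_sg F hD hB hdiam p₀ (B0 := WR.B0 F D Om) (c0 := c0) (by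
      rw [hp₀, hfp]
      exact hf0) hy
    rw [hz, Form.smul_val, mul_smul]
    congr 1
  have hu' : JS b (cut_ru b) (Form.K (Form.pull C hC (κ⁻¹ • x₂))) =
      κ⁻¹ * (-(c1 * (2 * Real.pi ^ 2))) := by
    have h1 : Form.K (Form.pull C hC x₂) =
        -Form.pull (fun x => vs b p₁ (ret x)) (map_vs b p₁) (WR.B0 F D Om) :=
      K_geo b F hC p₁ hCf Om
    rw [S2I.pull_smul', Form.K_smul, map_smul, smul_eq_mul, h1, map_neg, JS_B0 b p₁ (c0 := c1)
      (by rw [hfp]; exact hf1)]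
  obtain ⟨H, hH⟩ := cz_eval b (cut_ru b) hC hC0 hG (map_sg F hD hB hdiam p₀) hC1 hzd hz2 hrel'
    hσz hu'
  exact int_of hκ hc0 hc1 hH

end Main

end

end Vale.Agent.P231.H649
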