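import Vale.Agent.P231.H649.CZ6
import Vale.Agent.P231.FE.Ang
import Vale.Agent.P231.S2II.ValF

/-!
# P231, S2-I (I7): the fibre value of the closed form of degree four
-/

set_option maxSynthPendingDepth 3
set_option linter.unusedSectionVars false
set_option linter.unusedVariables false

open Bundle Manifold Set Filter Module MeasureTheory
open scoped ContDiff Manifold Topology

namespace Vale.Agent.P231.H649

noncomputable section

open Vale.Agent.P234 Vale.Agent.P231 Vale.Agent.P231.Fm Vale.Agent.P231.W Vale.Agent.P231.WR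
open Vale.Agent.P231.S2I3 Vale.Agent.P231.S2I Vale.Agent.P231.H584 Vale.Agent.P231.H775

/-- four dimensional Euclidean space -/
abbrev E4 : Type := EuclideanSpace ℝ (Fin 4)

/-- the coordinates of `E4` -/
def c4 : E4 →L[ℝ] (Fin 4 → ℝ) := (EuclideanSpace.equiv (Fin 4) ℝ).toContinuousLinearMap

/-- the inverse of the coordinates -/
def d4 : (Fin 4 → ℝ) →L[ℝ] E4 := (EuclideanSpace.equiv (Fin 4) ℝ).symm.toContinuousLinearMap

theorem c4_d4 (y : Fin 4 → ℝ) : c4 (d4 y) = y := rfl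

theorem pull_c4_W4 : pull c4 W4 = FE.wdg (EuclideanSpace.basisFun (Fin 4) ℝ) := by
  have h1 : ∀ i, (qj i).comp c4 = innerSL ℝ (EuclideanSpace.basisFun (Fin 4) ℝ i) := fun i => by
    ext y
    change y i = inner ℝ (EuclideanSpace.basisFun (Fin 4) ℝ i) y
    rw [← EuclideanSpace.basisFun_repr, OrthonormalBasis.repr_apply_apply]
  rw [FE.wdg]
  simp only [List.ofFn_succ, List.ofFn_zero, List.prod_cons, List.prod_nil, mul_one]
  rw [W4, W4', map_mul, map_mul, map_mul, pull_dx, pull_dx, pull_dx, pull_dx, h1, h1, h1, h1]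
  rfl

variable {E : Type*} [NormedAddCommGroup E] [NormedSpace ℝ E]
  {M : Type*} [MetricSpace M] [ChartedSpace E M]
  [RiemannianBundle (fun x : M => TangentSpace 𝓘(ℝ, E) x)]
  {e : ∀ x : M, TangentSpace 𝓘(ℝ, E) x → M}
  [FiniteDimensional ℝ E] [IsManifold 𝓘(ℝ, E) ∞ M]
  [IsContMDiffRiemannianBundle 𝓘(ℝ, E) ∞ E (fun x : M => TangentSpace 𝓘(ℝ, E) x)]
  [CompactSpace M] [ConnectedSpace M] [IsRiemannianManifold 𝓘(ℝ, E) M] {D : ℝ}

/-- the basis of the plane, as tangent vectors -/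
def ep (p₀ : Fr e D 3) (i : Fin 4) : TangentSpace 𝓘(ℝ, E) (foot p₀.v) := eps (E := E) p₀ i

theorem norm_ep (p₀ : Fr e D 3) (i : Fin 4) : ‖ep p₀ i‖ = 1 := by
  have h3 := eps_ip p₀ i i
  rw [if_pos rfl] at h3
  have h4 : nm (foot p₀.v) (eps p₀ i) = 1 := nm_eq_one h3
  exact h4

/-- the linear map of `E4` on the plane of a frame -/
def T4 (p₀ : Fr e D 3) : E4 →ₗ[ℝ] TangentSpace 𝓘(ℝ, E) (foot p₀.v) where
  toFun w := ∑ i, w i • ep p₀ i
  map_add' v w := by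
    rw [← Finset.sum_add_distrib]
    refine Finset.sum_congr rfl fun i _ => ?_
    rw [PiLp.add_apply, add_smul]
  map_smul' c w := by
    rw [RingHom.id_apply, Finset.smul_sum]
    refine Finset.sum_congr rfl fun i _ => ?_
    rw [PiLp.smul_apply, smul_eq_mul, mul_smul]

theorem T4_apply (p₀ : Fr e D 3) (w : E4) : T4 p₀ w = ∑ i, w i • ep p₀ i := rfl

theorem norm_T4 (p₀ : Fr e D 3) (w : E4) : ‖T4 p₀ w‖ = ‖w‖ := by
  have h1 : inner ℝ (T4 p₀ w) (T4 p₀ w) = ∑ i, w i * w i :=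
    ip_comb_sum (foot p₀.v) (eps_ip p₀) (fun i => w i) (fun i => w i)
  have h2 : ‖T4 p₀ w‖ ^ 2 = ‖w‖ ^ 2 := by
    rw [← real_inner_self_eq_norm_sq, h1, EuclideanSpace.norm_sq_eq]
    refine Finset.sum_congr rfl fun i _ => ?_
    rw [Real.norm_eq_abs, sq_abs, sq]
  have h3 := congrArg Real.sqrt h2
  rwa [Real.sqrt_sq (norm_nonneg _), Real.sqrt_sq (norm_nonneg _)] at h3

/-- the isometry of `E4` on the plane of a frame -/
def I4 (p₀ : Fr e D 3) : E4 →ₗᵢ[ℝ] TangentSpace 𝓘(ℝ, E) (foot p₀.v) := ⟨T4 p₀, norm_T4 p₀⟩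

section Fib

variable (F : Facts e) (hD : 0 < D) (hB : InjGE e D) (hdiam : ∀ p q : M, dist p q ≤ D)

include F hD hB hdiam in
/-- the unit vectors of the plane have the same cut point -/
theorem bar_eps (p₀ : Fr e D 3) (i : Fin 4) :
    e (foot p₀.v) (D • ep p₀ i) = bar e D p₀.v :=
  ((H775.mem_Lk_iff F hD hB hdiam (dist_bar' F hD hB p₀.v)).2 ⟨norm_ep p₀ i, eps_mem p₀ i⟩).2

variable {p₀ : Fr e D 3}
  {Pi : TangentSpace 𝓘(ℝ, E) (foot p₀.v) →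
    TangentSpace 𝓘(ℝ, E) (foot p₀.v) →L[ℝ] TangentSpace 𝓘(ℝ, E) (foot p₀.v)}
  {o : TangentSpace 𝓘(ℝ, E) (foot p₀.v) → Fm.Lam (TangentSpace 𝓘(ℝ, E) (foot p₀.v))}
  {ρ : TangentSpace 𝓘(ℝ, E) (foot p₀.v) → ℝ} {r₀ : ℝ}

include F hD hB hdiam in
theorem Pi_T4 (hJ : FE.LineP e D (foot p₀.v) 1 Pi o) (w : E4) :
    Pi (ep p₀ 0) (T4 p₀ w) = T4 p₀ w := by
  have h0 : ∀ i, Pi (ep p₀ 0) (ep p₀ i) = ep p₀ i := fun i => by
    refine (hJ.cut _ _ (norm_ep p₀ 0) (norm_ep p₀ i)).1 ?_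
    rw [bar_eps F hD hB hdiam, bar_eps F hD hB hdiam]
  rw [T4_apply, map_sum]
  refine Finset.sum_congr rfl fun i _ => ?_
  rw [map_smul, h0]

include hdiam in
/-- **the fibre value** -/
theorem fibVal_FF (hl : ∀ x y : M, dist x y = D → finrank ℝ (H775.Pl e D x y) = 2 * 1 + 2)
    (hJ : FE.LineP e D (foot p₀.v) 1 Pi o) (hρ : WE.Rho e D (foot p₀.v) ρ r₀) (a : ℝ) :
    ∃ s : ℝ, (s = 1 ∨ s = -1) ∧ FibVal (WR.B0 F D (FE.FF F hD hB hdiam hl hJ hρ a))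
      (foot p₀.v) (eps p₀) (s * (a * 6)) := by
  have hx0 : ep p₀ 0 ≠ 0 := by
    rw [← norm_ne_zero_iff, norm_ep]
    exact one_ne_zero
  obtain ⟨s, hs, h1⟩ := hJ.os.pb_lin a (I4 p₀) hx0 (Pi_T4 F hD hB hdiam hJ)
    (EuclideanSpace.basisFun (Fin 4) ℝ)
  refine ⟨s, hs, ?_⟩
  intro E' _ _ _ U ξ x hξ hU
  set ξe : E' → E4 := fun y => d4 (ξ y) with hξe
  have hξes : Sm ξe x := by
    filter_upwards [hξ] with y hy
    exact d4.contDiff.contDiffAt.comp y hy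
  have hue : ∀ y, I4 p₀ (ξe y) = ∑ i, ξ y i • ep p₀ i := fun y => rfl
  have hu : Sm (fun y => I4 p₀ (ξe y)) x := by
    filter_upwards [hξes] with y hy
    exact (I4 p₀).toContinuousLinearMap.contDiff.contDiffAt.comp y hy
  have h2 := FE.B0_sphere F hD hB hdiam hl hJ hρ a (u := fun y => I4 p₀ (ξe y)) (U := U) hu hU
  change (KT D (Form.pull (gm e) (map_gm F) (FE.FF F hD hB hdiam hl hJ hρ a))).val U x = _
  have hnx : ‖ξe x‖ = 1 := by
    have h3 := nm_vec' (U x)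
    rw [hU.self_of_nhds.1, hU.self_of_nhds.2] at h3
    have h4 : ‖I4 p₀ (ξe x)‖ = 1 := h3
    rwa [(I4 p₀).norm_map] at h4
  have hne : ξe x ≠ 0 := by
    rw [← norm_ne_zero_iff, hnx]
    exact one_ne_zero
  have hd1 : DifferentiableAt ℝ ξe x := (hξes.self_of_nhds).differentiableAt (by simp)
  have hd2 : DifferentiableAt ℝ (I4 p₀ : E4 → TangentSpace 𝓘(ℝ, E) (foot p₀.v)) (ξe x) :=
    (I4 p₀).toContinuousLinearMap.differentiableAt
  have hdξ : DifferentiableAt ℝ ξ x := (hξ.self_of_nhds).differentiableAt (by simp)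
  rw [h2, pb_comp _ hd2 hd1, pb, h1 _ hne, map_smul, FE.std, hnx, one_pow, inv_one, one_smul,
    ← pull_c4_W4, pull_iprod, ← pull_comp_apply]
  have h5 : fderiv ℝ ξ x = c4.comp (fderiv ℝ ξe x) := by
    have h6 : ξ = fun y => c4 (ξe y) := rfl
    conv_lhs => rw [h6]
    exact (c4.hasFDerivAt.comp x hd1.hasFDerivAt).fderiv
  have h7 : ((2 * 1 + 1).factorial : ℝ) = 6 := by norm_num [Nat.factorial]
  rw [h5, h7]
  rfl

end Fib

section Final

theorem area_four : S2II.area 4 = 2 * Real.pi ^ 2 := by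
  rw [S2II.area_eq (by norm_num)]
  have h1 : √Real.pi ^ 4 = Real.pi ^ 2 := by
    rw [show (4 : ℕ) = 2 * 2 from rfl, pow_mul, Real.sq_sqrt Real.pi_pos.le]
  have h2 : Real.Gamma (((4 : ℕ) : ℝ) / 2) = 1 := by
    have h3 : (((4 : ℕ) : ℝ) / 2) = 2 := by norm_num
    rw [h3, Real.Gamma_two]
  rw [h1, h2, div_one]

theorem kappa_one (a : ℝ) : S2II.kappa 1 a = |a * 6| * (2 * Real.pi ^ 2) := by
  rw [S2II.kappa]
  have h7 : ((2 * 1 + 1).factorial : ℝ) = 6 := by norm_num [Nat.factorial]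
  rw [h7, show 2 * 1 + 2 = 4 from rfl, area_four]

theorem kap_one (a : ℝ) : FE.kap 1 a = |a * 6| * (2 * Real.pi ^ 2) := kappa_one a

variable (F : Facts e) (hD : 0 < D) (hB : InjGE e D) (hdiam : ∀ p q : M, dist p q ≤ D)
  {p : M}
  {Pi : TangentSpace 𝓘(ℝ, E) p → TangentSpace 𝓘(ℝ, E) p →L[ℝ] TangentSpace 𝓘(ℝ, E) p}
  {o : TangentSpace 𝓘(ℝ, E) p → Fm.Lam (TangentSpace 𝓘(ℝ, E) p)}
  {ρ : TangentSpace 𝓘(ℝ, E) p → ℝ} {r₀ : ℝ}

/-- **(I7)** The constant `c` of a relation `z² = 2 c (x₁ + x₂) + dΛ` for 637's form of degree four,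
`κ = ± 12 π² a`, is an integer. -/
theorem c_int_FF (hl : ∀ x y : M, dist x y = D → finrank ℝ (H775.Pl e D x y) = 2 * 1 + 2)
    (hdim : 4 < finrank ℝ E) (hJ : FE.LineP e D p 1 Pi o) (hρ : WE.Rho e D p ρ r₀) {a : ℝ}
    (ha : a ≠ 0) {κ : ℝ} (hκ : |κ| = S2II.kappa 1 a) {c : ℝ} {Λ : Form (dPr e D)}
    (hrel : (κ⁻¹ • L3.b0P F hD hB hdiam (FE.FF F hD hB hdiam hl hJ hρ a)) *
        (κ⁻¹ • L3.b0P F hD hB hdiam (FE.FF F hD hB hdiam hl hJ hρ a)) =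
      (2 * c) • (κ⁻¹ • Form.pull (fun q : Pr e D => bar e D q.v) (map_bv F)
          (FE.FF F hD hB hdiam hl hJ hρ a) +
        κ⁻¹ • Form.pull (fun q : Pr e D => foot q.v) map_fv
          (FE.FF F hD hB hdiam hl hJ hρ a)) + Λ.d) :
    ∃ n : ℤ, c = n := by
  have hκ0 : κ ≠ 0 := by
    have h1 : 0 < |κ| := by
      rw [hκ]
      exact S2II.kappa_pos ha
    exact abs_pos.1 h1
  refine c_int F hD hB hdiam (p := p) hl hdim (FE.FF_d F hD hB hdiam hl hJ hρ a)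
    (S2II.isDeg_FF F hD hB hdiam hl hJ hρ a) hκ0 ?_ hrel
  intro p₀ hp₀
  subst hp₀
  obtain ⟨s, hs, hv⟩ := fibVal_FF F hD hB hdiam hl hJ hρ a
  refine ⟨s * (a * 6), ?_, hv⟩
  have h1 : |s| = 1 := by
    rcases hs with rfl | rfl
    · exact abs_one
    · rw [abs_neg, abs_one]
  rw [abs_mul, h1, one_mul, hκ, kappa_one]

/-- **(I7)**, with the term `y²`, `y` exact. -/
theorem c_int_sq (hl : ∀ x y : M, dist x y = D → finrank ℝ (H775.Pl e D x y) = 2 * 1 + 2)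
    (hdim : 4 < finrank ℝ E) (hJ : FE.LineP e D p 1 Pi o) (hρ : WE.Rho e D p ρ r₀) {a : ℝ}
    (ha : a ≠ 0) {κ : ℝ} (hκ : |κ| = S2II.kappa 1 a) {c : ℝ} {y z x₁ x₂ η Λ : Form (dPr e D)}
    (hy : y = η.d)
    (hz : z = κ⁻¹ • L3.b0P F hD hB hdiam (FE.FF F hD hB hdiam hl hJ hρ a))
    (hx₁ : x₁ = κ⁻¹ • Form.pull (fun q : Pr e D => bar e D q.v) (map_bv F)
          (FE.FF F hD hB hdiam hl hJ hρ a))
    (hx₂ : x₂ = κ⁻¹ • Form.pull (fun q : Pr e D => foot q.v) map_fv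
          (FE.FF F hD hB hdiam hl hJ hρ a))
    (hrel : y ^ 2 + z ^ 2 = (2 * c) • (x₁ + x₂) + Λ.d) : ∃ n : ℤ, c = n := by
  have h1 : y ^ 2 = (η * η.d).d := by
    rw [Form.d_mul, Form.d_d, mul_zero, add_zero, hy, sq]
  have h2 : z * z = (2 * c) • (x₁ + x₂) + (Λ - η * η.d).d := by
    rw [Form.d_sub, ← h1]
    have h3 : z * z = (y ^ 2 + z ^ 2) - y ^ 2 := by rw [add_sub_cancel_left, sq z]
    rw [h3, hrel]
    abel
  rw [hz, hx₁, hx₂] at h2
  exact c_int_FF F hD hB hdiam hl hdim hJ hρ ha hκ h2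

end Final

end

end Vale.Agent.P231.H649
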