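import Vale.Agent.P231.WR.Proj
import Vale.Agent.P231.WF.Dim

/-!
# P231, S2-I: Gram–Schmidt along plots
-/

set_option maxSynthPendingDepth 3
set_option linter.unusedSectionVars false
set_option linter.unusedVariables false

open Bundle Manifold Set Filter Module InnerProductSpace
open scoped ContDiff Manifold Topology

namespace Vale.Agent.P231.H649

noncomputable section

open Vale.Agent.P234 Vale.Agent.P231 Vale.Agent.P231.H775 Vale.Agent.P231.Fm Vale.Agent.P231.W
  Vale.Agent.P231.WR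

variable {E : Type*} [NormedAddCommGroup E] [NormedSpace ℝ E]
  {M : Type*} [MetricSpace M] [ChartedSpace E M]
  [RiemannianBundle (fun x : M => TangentSpace 𝓘(ℝ, E) x)]
  {e : ∀ x : M, TangentSpace 𝓘(ℝ, E) x → M}
  [FiniteDimensional ℝ E] [IsManifold 𝓘(ℝ, E) ∞ M]
  [IsContMDiffRiemannianBundle 𝓘(ℝ, E) ∞ E (fun x : M => TangentSpace 𝓘(ℝ, E) x)]

section

variable {V : Type*} [NormedAddCommGroup V] [NormedSpace ℝ V]

theorem smV_sub {f : V → M} {u w : ∀ s, TangentSpace 𝓘(ℝ, E) (f s)} {s : V} (hu : SmV f u s)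
    (hw : SmV f w s) : SmV f (fun s => u s - w s) s := by
  have h1 : SmV f (fun s => (-1 : ℝ) • w s) s := SmV.smul contDiffAt_const hw
  refine (hu.add h1).congr (Eventually.of_forall fun s' => ?_)
  rw [neg_one_smul, sub_eq_add_neg]

theorem smV_gramSchmidt {N : ℕ} {f : V → M} {a : Fin N → ∀ s, TangentSpace 𝓘(ℝ, E) (f s)} {s₀ : V}
    (hf : ContMDiffAt 𝓘(ℝ, V) 𝓘(ℝ, E) ∞ f s₀)
    (ha : ∀ i, SmV f (a i) s₀) (hli : LinearIndependent ℝ (fun i => a i s₀)) (n : Fin N) :
    SmV f (fun s => gramSchmidt ℝ (fun i => a i s) n) s₀ := by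
  induction n using WellFoundedLT.induction with
  | ind n ih =>
    have h1 : ∀ s, a n s - ∑ i ∈ Finset.Iio n,
        ((inner ℝ (gramSchmidt ℝ (fun i => a i s) i) (a n s) : ℝ) *
          (inner ℝ (gramSchmidt ℝ (fun i => a i s) i)
            (gramSchmidt ℝ (fun i => a i s) i) : ℝ)⁻¹) • gramSchmidt ℝ (fun i => a i s) i =
        gramSchmidt ℝ (fun i => a i s) n := by
      intro s
      have h2 := gramSchmidt_def'' ℝ (fun i => a i s) n
      rw [sub_eq_iff_eq_add]
      refine Eq.trans h2 ?_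
      congr 1
      refine Finset.sum_congr rfl fun i _ => ?_
      rw [real_inner_self_eq_norm_sq, div_eq_mul_inv]
      rfl
    refine SmV.congr (smV_sub (ha n) (SmV.sum (Finset.Iio n) hf fun i hi => ?_))
      (Eventually.of_forall h1)
    have h3 := ih i (Finset.mem_Iio.1 hi)
    refine SmV.smul ?_ h3
    refine ContDiffAt.mul (h3.inner (ha n)) ?_
    refine ContDiffAt.inv (h3.inner h3) ?_
    rw [real_inner_self_eq_norm_sq]
    exact pow_ne_zero 2 (norm_ne_zero_iff.2 (gramSchmidt_ne_zero i hli))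

/-- linear independence of smooth fields is an open condition -/
theorem eventually_li {N : ℕ} {f : V → M} {a : Fin N → ∀ s, TangentSpace 𝓘(ℝ, E) (f s)} {s₀ : V}
    (ha : ∀ i, SmV f (a i) s₀) (hf : ContMDiffAt 𝓘(ℝ, V) 𝓘(ℝ, E) ∞ f s₀)
    (hli : LinearIndependent ℝ (fun i => a i s₀)) :
    ∀ᶠ s in 𝓝 s₀, LinearIndependent ℝ (fun i => a i s) := by
  have hsrc := mem_extChartAt_source (I := 𝓘(ℝ, E)) (f s₀)
  let c : V → Fin N → E := fun s i => crd (f s₀) (f s) (a i s)
  have hc : ContinuousAt c s₀ := by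
    rw [continuousAt_pi]
    intro i
    exact ((smV_iff (f s₀) hsrc).1 (ha i)).2.continuousAt
  have h0 : LinearIndependent ℝ (c s₀) := by
    have h1 : LinearMap.ker (crd (E := E) (f s₀) (f s₀) : TangentSpace 𝓘(ℝ, E) (f s₀) →ₗ[ℝ] E) =
        ⊥ := by
      rw [LinearMap.ker_eq_bot]
      intro x y hxy
      have h2 := vec_crd (f s₀) hsrc x
      have h3 := vec_crd (f s₀) hsrc y
      have h4 : crd (E := E) (f s₀) (f s₀) x = crd (E := E) (f s₀) (f s₀) y := hxy
      rw [← h2, ← h3, h4]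
    exact hli.map' _ h1
  have h5 := hc.eventually (isOpen_setOfPred_linearIndependent.mem_nhds h0)
  filter_upwards [h5] with s hs
  exact LinearIndependent.of_comp
    (crd (E := E) (f s₀) (f s) : TangentSpace 𝓘(ℝ, E) (f s) →ₗ[ℝ] E) hs

end

variable [CompactSpace M] [ConnectedSpace M] [IsRiemannianManifold 𝓘(ℝ, E) M]

/-- raw vectors as tangent vectors -/
def tvs (v : UT E M) {k : ℕ} (a : Fin k → E) : Fin k → TangentSpace 𝓘(ℝ, E) (foot v) := a

/-- the normalised Gram–Schmidt vectors -/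
def gsv (v : UT E M) {k : ℕ} (a : Fin k → E) (i : Fin k) : TangentSpace 𝓘(ℝ, E) (foot v) :=
  gramSchmidtNormed ℝ (tvs v a) i

open Classical in
/-- the normalised Gram–Schmidt vectors, as unit tangent vectors -/
def gsU (v : UT E M) {k : ℕ} (a : Fin k → E) (i : Fin k) : UT E M :=
  if h : nm (E := E) (foot v) (gsv v a i) = 1 then mk (E := E) (foot v) (gsv v a i) h else v

theorem nm_gsv {v : UT E M} {k : ℕ} {a : Fin k → E} (hli : LinearIndependent ℝ (tvs v a))
    (i : Fin k) : nm (E := E) (foot v) (gsv v a i) = 1 :=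
  (gramSchmidtNormed_orthonormal (𝕜 := ℝ) hli).1 i

theorem gsU_eq {v : UT E M} {k : ℕ} {a : Fin k → E} (hli : LinearIndependent ℝ (tvs v a))
    (i : Fin k) : gsU v a i = mk (E := E) (foot v) (gsv v a i) (nm_gsv hli i) :=
  dif_pos (nm_gsv hli i)

theorem gsU_spec {v : UT E M} {k : ℕ} {a : Fin k → E} (hli : LinearIndependent ℝ (tvs v a))
    (i : Fin k) : foot (gsU v a i) = foot v ∧ vec' (gsU v a i) = (gsv (E := E) v a i : E) := by
  rw [gsU_eq hli]
  exact ⟨rfl, rfl⟩

/-- Gram–Schmidt of a basis of `L_v` is an orthonormal frame -/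
theorem isLF_gsU (F : Facts e) {D : ℝ} (hD : 0 < D) (hB : InjGE e D)
    (hdiam : ∀ p q : M, dist p q ≤ D) {v : UT E M} {k : ℕ} {a : Fin k → E}
    (ha : ∀ i, tvs v a i ∈ Lf e D v) (hli : LinearIndependent ℝ (tvs v a)) :
    IsLF e D v (gsU v a) := by
  have ho := gramSchmidtNormed_orthonormal (𝕜 := ℝ) hli
  refine ⟨fun i => ?_, fun i j hij => ?_⟩
  · have h2 : gsv v a i ∈ Lf e D v := by
      have h3 := gramSchmidt_mem_span ℝ (tvs v a) (le_refl i)
      have h4 : Submodule.span ℝ (tvs v a '' Set.Iic i) ≤ Lf e D v := by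
        rw [Submodule.span_le]
        rintro _ ⟨j, -, rfl⟩
        exact ha j
      exact Submodule.smul_mem _ _ (h4 h3)
    have h5 := (isL_iff F hD hB hdiam (nm_gsv hli i)).1 h2
    rw [gsU_eq hli]
    exact h5
  · have h1 : inner ℝ (gsv v a i) (gsv v a j) = (0 : ℝ) := ho.2 hij
    have h2 := (gsU_spec hli i).2
    have h3 := (gsU_spec hli j).2
    rw [h2, h3]
    exact h1

/-- Gram–Schmidt of an orthonormal frame -/
theorem gsU_self {D : ℝ} {v : UT E M} {k : ℕ} {W : Fin k → UT E M} (h : IsLF e D v W) (i : Fin k) :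
    gsU v (fun j => vec' (W j)) i = W i := by
  set b := tvs v (fun j => vec' (W j)) with hb
  have hpair : Pairwise fun i j => inner ℝ (b i) (b j) = (0 : ℝ) := fun i j hij => h.orth i j hij
  have h1 : gramSchmidt ℝ b = b := gramSchmidt_of_orthogonal ℝ hpair
  have h2 : ‖b i‖ = 1 := by
    have h3 : nm (foot (W i)) (vec' (W i)) = 1 := nm_vec' (W i)
    rw [(h.isL i).foot_eq] at h3
    exact h3
  have h4 : gsv v (fun j => vec' (W j)) i = b i := by
    rw [gsv, gramSchmidtNormed, ← hb, h1, h2]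
    simp
  have h5 : nm (E := E) (foot v) (gsv v (fun j => vec' (W j)) i) = 1 := by
    rw [h4]
    exact h2
  have h6 : gsU v (fun j => vec' (W j)) i =
    mk (E := E) (foot v) (gsv v (fun j => vec' (W j)) i) h5 := dif_pos h5
  rw [h6]
  refine Eq.trans ?_ (mk_eta (W i))
  exact mk_congr (h.isL i).foot_eq.symm h4

/-- Gram–Schmidt along plots -/
theorem at_gsU {E' : Type} [NormedAddCommGroup E'] [NormedSpace ℝ E'] [FiniteDimensional ℝ E']
    {u : E' → UT E M} {k : ℕ} {a : Fin k → E' → E} {x : E'} (hu : (dUT E M).At u x)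
    (ha : ∀ i, (dTM E M).At (fun s => tb (foot (u s)) (a i s)) x)
    (hli : LinearIndependent ℝ (tvs (u x) (fun j => a j x))) (i : Fin k) :
    (dUT E M).At (fun s => gsU (u s) (fun j => a j s) i) x := by
  have hfoot : ∀ᶠ s in 𝓝 x, ContMDiffAt 𝓘(ℝ, E') 𝓘(ℝ, E) ∞ (fun s => foot (u s)) s :=
    map_foot hu
  let A : Fin k → ∀ s, TangentSpace 𝓘(ℝ, E) (foot (u s)) :=
    fun i s => tvs (u s) (fun j => a j s) i
  have ha' : ∀ᶠ s in 𝓝 x, ∀ i, SmV (fun s => foot (u s)) (A i) s :=
    eventually_all.2 fun i => smV_iff_tb.1 (ha i)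
  have hev := eventually_li (f := fun s => foot (u s)) (a := A) ha'.self_of_nhds
    hfoot.self_of_nhds hli
  rw [at_iff]
  filter_upwards [hfoot, ha', eventually_eventually_nhds.2 hev] with s h1 h2 h3
  have h4 := smV_gramSchmidt (f := fun s => foot (u s)) (a := A) h1 h2 h3.self_of_nhds i
  have h5 := WF.smV_normalize h4 (gramSchmidt_ne_zero i h3.self_of_nhds)
  refine ContMDiffAt.congr_of_eventuallyEq h5 ?_
  filter_upwards [h3] with s' hs'
  have h6 := gsU_spec (v := u s') hs' i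
  exact tb_congr h6.1 h6.2

end

end Vale.Agent.P231.H649
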