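import Vale.Agent.P231.H649.Sard
import Vale.Agent.P231.WF.Log
import Vale.Agent.P231.H775.Link

/-!
# P231, S2-I (I1): the null lemma

`NullE e D N`: the subset `N` of `M` is null in all exponential charts.
-/

set_option maxSynthPendingDepth 3
set_option linter.unusedSectionVars false
set_option linter.unusedVariables false

open Bundle Manifold Set Filter Module MeasureTheory
open scoped ContDiff Manifold Topology

namespace Vale.Agent.P231.H649

noncomputable section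

open Vale.Agent.P234 Vale.Agent.P231 Vale.Agent.P231.H775 Vale.Agent.P231.WE

variable {E : Type*} [NormedAddCommGroup E] [NormedSpace ℝ E]
  {M : Type*} [MetricSpace M] [ChartedSpace E M]
  [RiemannianBundle (fun x : M => TangentSpace 𝓘(ℝ, E) x)]
  {e : ∀ x : M, TangentSpace 𝓘(ℝ, E) x → M} [FiniteDimensional ℝ E]

/-- null in all exponential charts of radius `D` -/
def NullE (e : ∀ x : M, TangentSpace 𝓘(ℝ, E) x → M) (D : ℝ) (N : Set M) : Prop :=
  ∀ x : M, volume {ξ : Eu E | ‖ξ‖ < D ∧ ef e x ξ ∈ N} = 0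

theorem NullE.mono {D : ℝ} {N N' : Set M} (h : NullE e D N) (hN : N' ⊆ N) : NullE e D N' :=
  fun x => measure_mono_null
    (fun (ξ : Eu E) (hξ : ‖ξ‖ < D ∧ ef e x ξ ∈ N') => show ‖ξ‖ < D ∧ ef e x ξ ∈ N from
      ⟨hξ.1, hN hξ.2⟩) (h x)

theorem NullE.iUnion {ι : Type*} [Countable ι] {D : ℝ} {N : ι → Set M}
    (h : ∀ i, NullE e D (N i)) : NullE e D (⋃ i, N i) := fun x => by
  have h1 : {ξ : Eu E | ‖ξ‖ < D ∧ ef e x ξ ∈ ⋃ i, N i} ⊆
      ⋃ i, {ξ : Eu E | ‖ξ‖ < D ∧ ef e x ξ ∈ N i} := by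
    rintro ξ ⟨h2, h3⟩
    obtain ⟨i, hi⟩ := mem_iUnion.1 h3
    exact mem_iUnion.2 ⟨i, h2, hi⟩
  exact measure_mono_null h1 (measure_iUnion_null fun i => h i x)

theorem NullE.union {D : ℝ} {N N' : Set M} (h : NullE e D N) (h' : NullE e D N') :
    NullE e D (N ∪ N') := fun x => by
  have h1 : {ξ : Eu E | ‖ξ‖ < D ∧ ef e x ξ ∈ N ∪ N'} ⊆
      {ξ : Eu E | ‖ξ‖ < D ∧ ef e x ξ ∈ N} ∪ {ξ : Eu E | ‖ξ‖ < D ∧ ef e x ξ ∈ N'} := by
    rintro ξ ⟨h2, h3 | h3⟩
    · exact Or.inl ⟨h2, h3⟩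
    · exact Or.inr ⟨h2, h3⟩
  exact measure_mono_null h1 (measure_union_null (h x) (h' x))

theorem NullE.empty {D : ℝ} : NullE e D (∅ : Set M) := fun x => by
  have h1 : {ξ : Eu E | ‖ξ‖ < D ∧ ef e x ξ ∈ (∅ : Set M)} = ∅ := by
    ext ξ
    simp
  rw [h1, measure_empty]

/-- the complement of a null set is nonempty, and meets every ball -/
theorem NullE.exists_notMem {D : ℝ} (hD : 0 < D) {N : Set M} (h : NullE e D N) (x : M) :
    ∃ ξ : Eu E, ‖ξ‖ < D ∧ ef e x ξ ∉ N := by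
  by_contra hcon
  push Not at hcon
  have h1 : (volume (Metric.ball (0 : Eu E) D)) = 0 := by
    refine measure_mono_null (fun ξ hξ => ?_) (h x)
    have h2 : ‖ξ‖ < D := by simpa using hξ
    exact ⟨h2, hcon ξ h2⟩
  exact (Metric.measure_ball_pos volume (0 : Eu E) hD).ne' h1

variable [IsManifold 𝓘(ℝ, E) ∞ M]
  [IsContMDiffRiemannianBundle 𝓘(ℝ, E) ∞ E (fun x : M => TangentSpace 𝓘(ℝ, E) x)]
  [CompactSpace M] [ConnectedSpace M] [IsRiemannianManifold 𝓘(ℝ, E) M]
  {V : Type*} [NormedAddCommGroup V] [NormedSpace ℝ V] [FiniteDimensional ℝ V]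

/-- **Null lemma, general form.** -/
theorem nullE_image (F : Facts e) {D : ℝ} (hB : InjGE e D) {G : V → M} {T : Set V}
    (hV : finrank ℝ V ≤ finrank ℝ E)
    (hG : ∀ s ∈ T, ContMDiffAt 𝓘(ℝ, V) 𝓘(ℝ, E) ∞ G s)
    (hk : ∀ s ∈ T, finrank ℝ V < finrank ℝ E ∨ ∃ (c : ℝ → V) (z : V), z ≠ 0 ∧ HasDerivAt c z 0 ∧
      c 0 = s ∧ ∀ᶠ t in 𝓝 (0 : ℝ), G (c t) = G s) :
    NullE e D (G '' T) := by
  intro x
  let g : V → Eu E := fun s => areaB (E := E) x (logMap e x (G s))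
  let T' : Set V := {s | s ∈ T ∧ dist x (G s) < D}
  have hgd : ∀ s ∈ T', DifferentiableAt ℝ g s := by
    rintro s ⟨hs, hd⟩
    have h1 : ContMDiffAt 𝓘(ℝ, V) 𝓘(ℝ, TangentSpace 𝓘(ℝ, E) x) ∞
        (logMap e x ∘ G) s := ContMDiffAt.comp s (contMDiffAt_logMap_of_dist F hB hd) (hG s hs)
    have h2 : ContDiffAt ℝ ∞ (logMap e x ∘ G) s := h1.contDiffAt
    exact ((areaB (E := E) x).contDiff.contDiffAt.comp s h2).differentiableAt (by simp)
  have h0 : volume (g '' T') = 0 := by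
    refine sard_ker volume (by rw [finrank_euclideanSpace_fin]; exact hV) hgd ?_
    rintro s ⟨hs, hd⟩
    rcases hk s hs with h | ⟨c, z, hz, hc, hc0, hcG⟩
    · exact Or.inl (by rw [finrank_euclideanSpace_fin]; exact h)
    · refine Or.inr ⟨z, hz, ?_⟩
      have h1 : HasFDerivAt g (fderiv ℝ g s) (c 0) := by
        rw [hc0]
        exact (hgd s ⟨hs, hd⟩).hasFDerivAt
      have h2 : HasDerivAt (fun t => g (c t)) (fderiv ℝ g s z) 0 := h1.comp_hasDerivAt 0 hc
      have h3 : HasDerivAt (fun t => g (c t)) 0 0 := by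
        refine (hasDerivAt_const (0 : ℝ) (g s)).congr_of_eventuallyEq ?_
        filter_upwards [hcG] with t ht
        simp only [g, ht]
      exact h2.unique h3
  refine measure_mono_null ?_ h0
  rintro ξ ⟨hξ, s, hs, hsξ⟩
  have h1 : ‖(areaA (E := E) x ξ)‖ = ‖ξ‖ := nm_fr x ξ
  have h2 : G s = e x (areaA (E := E) x ξ) := hsξ
  refine ⟨s, ⟨hs, ?_⟩, ?_⟩
  · rw [h2, hB x _ (by rw [h1]; exact hξ.le), h1]
    exact hξ
  · have h3 : logMap e x (G s) = areaA (E := E) x ξ := by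
      rw [h2]
      exact logMap_exp F hB (by rw [h1]; exact hξ)
    have h4 : areaB (E := E) x (areaA (E := E) x ξ) = ξ := (fr (E := E) x).symm_apply_apply ξ
    simp only [g]
    rw [h3, h4]

/-- images of smooth maps from spaces of smaller dimension are null -/
theorem nullE_range (F : Facts e) {D : ℝ} (hB : InjGE e D) {G : V → M} {T : Set V}
    (hV : finrank ℝ V < finrank ℝ E) (hG : ∀ s ∈ T, ContMDiffAt 𝓘(ℝ, V) 𝓘(ℝ, E) ∞ G s) :
    NullE e D {q | ∃ s ∈ T, G s = q} :=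
  nullE_image F hB hV.le hG fun _ _ => Or.inl hV

omit [IsManifold 𝓘(ℝ, E) ∞ M] in
theorem exists_inj {m : ℕ} (hm : m ≤ finrank ℝ E) :
    ∃ i : (Fin m → ℝ) →L[ℝ] E, Function.Injective i := by
  let b := Module.finBasis ℝ E
  have h1 : LinearIndependent ℝ (fun k : Fin m => b (Fin.castLE hm k)) :=
    b.linearIndependent.comp _ (Fin.castLE_injective hm)
  have h2 := linearIndependent_iff_injective_fintypeLinearCombination.1 h1
  exact ⟨LinearMap.toContinuousLinearMap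
    (Fintype.linearCombination ℝ (fun k : Fin m => b (Fin.castLE hm k))), h2⟩

theorem nullE_cut_aux (F : Facts e) {D : ℝ} (hD : 0 < D) (hB : InjGE e D)
    (hdiam : ∀ p q : M, dist p q ≤ D) {l : ℕ}
    (hP : ∀ x y : M, dist x y = D → finrank ℝ (Pl e D x y) = l + 1)
    (hV : finrank ℝ V ≤ l) (hl : l < finrank ℝ E) {f : V → M} {T : Set V}
    (hf : ∀ s ∈ T, ContMDiffAt 𝓘(ℝ, V) 𝓘(ℝ, E) ∞ f s)
    {W : Type*} [NormedAddCommGroup W] [NormedSpace ℝ W] [FiniteDimensional ℝ W]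
    (hWf : finrank ℝ W = finrank ℝ E - l) (i : W →L[ℝ] E) (hi : Function.Injective i) :
    NullE e D {q | ∃ s ∈ T, dist (f s) q = D} := by
  -- finitely many charts
  obtain ⟨t, ht⟩ : ∃ t : Finset M, (univ : Set M) ⊆ ⋃ x ∈ t, (extChartAt 𝓘(ℝ, E) x).source := by
    obtain ⟨t, -, ht⟩ := isCompact_univ.elim_nhds_subcover
      (fun x : M => (extChartAt 𝓘(ℝ, E) x).source) fun x _ =>
        (isOpen_extChartAt_source (I := 𝓘(ℝ, E)) x).mem_nhds (mem_extChartAt_source x)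
    exact ⟨t, ht⟩
  let A : M → V × W → E := fun x₀ p => vec (E := E) x₀ (f p.1) (i p.2)
  let r : M → V × W → ℝ := fun x₀ p => nm (f p.1) (A x₀ p)
  let G : M → V × W → M := fun x₀ p => e (f p.1) ((D * (r x₀ p)⁻¹) • A x₀ p : E)
  let S : M → Set (V × W) := fun x₀ =>
    {p | p.1 ∈ T ∧ f p.1 ∈ (extChartAt 𝓘(ℝ, E) x₀).source ∧ p.2 ≠ 0}
  have hinj : ∀ x₀ : M, ∀ p ∈ S x₀, A x₀ p ≠ 0 := by
    rintro x₀ p ⟨-, h1, h2⟩ h3
    have h4 := crd_vec x₀ h1 (i p.2)
    have h5 : vec (E := E) x₀ (f p.1) (i p.2) = 0 := h3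
    rw [h5, map_zero] at h4
    exact h2 (hi (by rw [map_zero]; exact h4.symm))
  have hrpos : ∀ x₀ : M, ∀ p ∈ S x₀, 0 < r x₀ p := by
    intro x₀ p hp
    have h1 := hinj x₀ p hp
    have h2 : 0 < @norm (TangentSpace 𝓘(ℝ, E) (f p.1)) _ (A x₀ p) :=
      (norm_pos_iff (E := TangentSpace 𝓘(ℝ, E) (f p.1))).2 h1
    exact h2
  have key : ∀ x₀ : M, NullE e D (G x₀ '' S x₀) := by
    intro x₀
    refine nullE_image F hB ?_ ?_ ?_
    · rw [finrank_prod, hWf]; omega
    · rintro p hp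
      obtain ⟨h1, h2, h3⟩ := hp
      have h4 : ContMDiffAt 𝓘(ℝ, V × W) 𝓘(ℝ, E) ∞ (fun p : V × W => f p.1) p :=
        (hf p.1 h1).comp p contDiffAt_fst.contMDiffAt
      have h5 : SmV (V := V × W) (fun p : V × W => f p.1)
          (fun p => vec x₀ (f p.1) (i p.2)) p :=
        smV_vec (V := V × W) x₀ h2 h4 (i.contDiff.contDiffAt.comp p contDiffAt_snd)
      have h6 := h5.norm_sq
      have h7 : (‖(vec x₀ (f p.1) (i p.2) : TangentSpace 𝓘(ℝ, E) (f p.1))‖ ^ 2) ≠ 0 := by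
        have := (hrpos x₀ p ⟨h1, h2, h3⟩).ne'
        exact pow_ne_zero 2 this
      have h8 : ContDiffAt ℝ ∞ (fun p : V × W => D * (r x₀ p)⁻¹) p := by
        have h9 : ContDiffAt ℝ ∞ (fun p : V × W => Real.sqrt
            (‖(vec x₀ (f p.1) (i p.2) : TangentSpace 𝓘(ℝ, E) (f p.1))‖ ^ 2)) p :=
          h6.sqrt h7
        have h10 : (fun p : V × W => Real.sqrt
            (‖(vec x₀ (f p.1) (i p.2) : TangentSpace 𝓘(ℝ, E) (f p.1))‖ ^ 2)) = r x₀ := by
          funext p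
          exact Real.sqrt_sq (norm_nonneg _)
        rw [h10] at h9
        exact contDiffAt_const.mul (h9.inv (hrpos x₀ p ⟨h1, h2, h3⟩).ne')
      exact (SmV.smul h8 h5).exp F.isExp
    · rintro p hp
      refine Or.inr ⟨fun t => (p.1, (1 + t) • p.2), (0, p.2), ?_, ?_, ?_, ?_⟩
      · intro h
        exact hp.2.2 (congrArg Prod.snd h)
      · have h1 : HasDerivAt (fun t : ℝ => (1 + t) • p.2) ((1 : ℝ) • p.2) 0 :=
          ((hasDerivAt_id (0 : ℝ)).const_add 1).smul_const p.2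
        rw [one_smul] at h1
        exact (hasDerivAt_const (0 : ℝ) p.1).prodMk h1
      · simp
      · have h1 : ∀ᶠ t in 𝓝 (0 : ℝ), (-1 : ℝ) < t := lt_mem_nhds (by norm_num)
        filter_upwards [h1] with t ht
        have ht' : 0 < 1 + t := by linarith
        have h2 : A x₀ (p.1, (1 + t) • p.2) = (1 + t) • A x₀ p := by
          simp only [A]
          rw [map_smul]
          exact (vec (E := E) x₀ (f p.1)).map_smul (1 + t) (i p.2)
        have h3 : r x₀ (p.1, (1 + t) • p.2) = (1 + t) * r x₀ p := by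
          change nm (f p.1) (A x₀ (p.1, (1 + t) • p.2)) = _
          rw [h2, nm_smul, abs_of_pos ht']
        have h4 : ((D * (r x₀ (p.1, (1 + t) • p.2))⁻¹) • A x₀ (p.1, (1 + t) • p.2) : E) =
            (D * (r x₀ p)⁻¹) • A x₀ p := by
          rw [h2, h3, smul_smul]
          congr 1
          have := (hrpos x₀ p hp).ne'
          field_simp
        exact congrArg (e (f p.1)) h4
  have hall : NullE e D (⋃ x₀ : t, G x₀ '' S x₀) := NullE.iUnion fun x₀ => key x₀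
  refine hall.mono ?_
  rintro q ⟨s, hs, hsq⟩
  obtain ⟨x₀, hx₀, hsrc⟩ := mem_iUnion₂.1 (ht (mem_univ (f s)))
  -- a common vector
  have hdq : dist q (f s) = D := by rw [dist_comm]; exact hsq
  set P := Pl e D q (f s) with hPdef
  have hfin : finrank ℝ P = l + 1 := hP _ _ hdq
  let B : W →ₗ[ℝ] TangentSpace 𝓘(ℝ, E) (f s) :=
    ((vec (E := E) x₀ (f s)).comp i : W →L[ℝ] TangentSpace 𝓘(ℝ, E) (f s)).toLinearMap
  have hBi : Function.Injective B := by
    intro a b hab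
    have h1 := crd_vec x₀ hsrc (i a)
    have h2 := crd_vec x₀ hsrc (i b)
    have h3 : vec (E := E) x₀ (f s) (i a) = vec (E := E) x₀ (f s) (i b) := hab
    rw [h3, h2] at h1
    exact (hi h1).symm
  have hT : FiniteDimensional ℝ (TangentSpace 𝓘(ℝ, E) (f s)) :=
    inferInstanceAs (FiniteDimensional ℝ E)
  have hTf : finrank ℝ (TangentSpace 𝓘(ℝ, E) (f s)) = finrank ℝ E := rfl
  obtain ⟨y, hyP, hyB, hy0⟩ : ∃ y ∈ P, y ∈ LinearMap.range B ∧ y ≠ 0 := by
    by_contra hcon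
    push Not at hcon
    have h1 : Disjoint P (LinearMap.range B) := by
      rw [Submodule.disjoint_def]
      exact hcon
    have h2 := Submodule.finrank_add_finrank_le_of_disjoint h1
    rw [LinearMap.finrank_range_of_inj hBi, hfin, hWf, hTf] at h2
    omega
  obtain ⟨w, rfl⟩ := hyB
  have hw : w ≠ 0 := by
    rintro rfl
    exact hy0 (map_zero B)
  have hpS : ((s, w) : V × W) ∈ S x₀ := ⟨hs, hsrc, hw⟩
  refine mem_iUnion.2 ⟨⟨x₀, hx₀⟩, (s, w), hpS, ?_⟩
  have h1 := hrpos x₀ (s, w) hpS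
  have h2 : ‖((r x₀ (s, w))⁻¹ • B w : TangentSpace 𝓘(ℝ, E) (f s))‖ = 1 := by
    rw [norm_smul, norm_inv, Real.norm_of_nonneg h1.le]
    exact inv_mul_cancel₀ h1.ne'
  have h3 := (mem_Lk_iff F hD hB hdiam hdq).2 ⟨h2, Submodule.smul_mem _ _ hyP⟩
  have h4 := h3.2
  rw [smul_smul] at h4
  exact h4

/-- **Null lemma for the cut locus**: the points at distance `D` from the image of a smooth map
from a space of dimension at most the cut multiplicity form a null set. -/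
theorem nullE_cut (F : Facts e) {D : ℝ} (hD : 0 < D) (hB : InjGE e D)
    (hdiam : ∀ p q : M, dist p q ≤ D) {l : ℕ}
    (hP : ∀ x y : M, dist x y = D → finrank ℝ (Pl e D x y) = l + 1)
    (hV : finrank ℝ V ≤ l) (hl : l < finrank ℝ E) {f : V → M} {T : Set V}
    (hf : ∀ s ∈ T, ContMDiffAt 𝓘(ℝ, V) 𝓘(ℝ, E) ∞ f s) :
    NullE e D {q | ∃ s ∈ T, dist (f s) q = D} := by
  obtain ⟨i, hi⟩ := exists_inj (E := E) (m := finrank ℝ E - l) (by omega)
  exact nullE_cut_aux F hD hB hdiam hP hV hl hf (W := Fin (finrank ℝ E - l) → ℝ) (by simp) i hi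

/-- the null lemma for homogeneous maps -/
theorem nullE_cut_hom (F : Facts e) {D : ℝ} (hD : 0 < D) (hB : InjGE e D)
    (hdiam : ∀ p q : M, dist p q ≤ D) {l : ℕ}
    (hP : ∀ x y : M, dist x y = D → finrank ℝ (Pl e D x y) = l + 1)
    (hV : finrank ℝ V ≤ l + 1) (hl : l < finrank ℝ E) {f : V → M}
    (hf : ∀ s, s ≠ 0 → ContMDiffAt 𝓘(ℝ, V) 𝓘(ℝ, E) ∞ f s)
    (hh : ∀ (c : ℝ) (x : V), 0 < c → x ≠ 0 → f (c • x) = f x) :
    NullE e D {q | ∃ s, s ≠ 0 ∧ dist (f s) q = D} := by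
  let b := Module.finBasis ℝ V
  let U : Fin (finrank ℝ V) → Submodule ℝ V := fun k => LinearMap.ker (b.coord k)
  have hUf : ∀ k, finrank ℝ (U k) ≤ l := by
    intro k
    have h1 := LinearMap.finrank_range_add_finrank_ker (b.coord k)
    have h2 : 0 < finrank ℝ (LinearMap.range (b.coord k)) := by
      have h3 : LinearMap.range (b.coord k) ≠ ⊥ := by
        rw [Ne, LinearMap.range_eq_bot]
        intro h4
        have h5 := congrArg (fun g : V →ₗ[ℝ] ℝ => g (b k)) h4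
        simp at h5
      exact Nat.pos_of_ne_zero fun h => h3 (Submodule.finrank_eq_zero.1 h)
    change finrank ℝ (LinearMap.ker (b.coord k)) ≤ l
    omega
  let G : Fin (finrank ℝ V) × Bool → V → M := fun p y => f ((if p.2 then (1 : ℝ) else -1) • b p.1 + y)
  have hne : ∀ (p : Fin (finrank ℝ V) × Bool) (y : U p.1),
      (if p.2 then (1 : ℝ) else -1) • b p.1 + (y : V) ≠ 0 := by
    intro p y h
    have h1 := congrArg (b.coord p.1) h
    have h2 : b.coord p.1 (y : V) = 0 := y.2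
    rw [map_add, map_smul, h2, map_zero, add_zero, Basis.coord_apply, Basis.repr_self,
      Finsupp.single_eq_same, smul_eq_mul, mul_one] at h1
    split_ifs at h1 <;> norm_num at h1
  have key : ∀ p : Fin (finrank ℝ V) × Bool,
      NullE e D {q | ∃ y ∈ (univ : Set (U p.1)), dist (G p (y : V)) q = D} := by
    intro p
    refine nullE_cut F hD hB hdiam hP (hUf p.1) hl (V := U p.1) (f := fun y => G p (y : V)) ?_
    intro y _
    have h1 : ContDiffAt ℝ ∞ (fun y : U p.1 => (if p.2 then (1 : ℝ) else -1) • b p.1 + (y : V)) y :=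
      contDiffAt_const.add ((U p.1).subtypeL.contDiff.contDiffAt)
    exact (hf _ (hne p y)).comp y h1.contMDiffAt
  refine (NullE.iUnion key).mono ?_
  rintro q ⟨s, hs, hsq⟩
  obtain ⟨k, hk⟩ : ∃ k, b.coord k s ≠ 0 := by
    by_contra hcon
    push Not at hcon
    exact hs (b.ext_elem fun i => by simpa using hcon i)
  set c : ℝ := b.coord k s with hc
  have hcp : 0 < |c| := abs_pos.2 hk
  let ε : Bool := decide (0 < c)
  have hε : (if ε then (1 : ℝ) else -1) = |c|⁻¹ * c := by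
    rcases lt_or_gt_of_ne hk with h | h
    · have : ε = false := by simp [ε, not_lt.2 h.le]
      rw [this, abs_of_neg h]
      field_simp
      norm_num
    · have : ε = true := by simp [ε, h]
      rw [this, abs_of_pos h]
      field_simp
      norm_num
  have hy : |c|⁻¹ • s - (if ε then (1 : ℝ) else -1) • b k ∈ U k := by
    change b.coord k _ = 0
    have h1 : b.coord k (b k) = 1 := by
      rw [Basis.coord_apply, Basis.repr_self, Finsupp.single_eq_same]
    rw [map_sub, map_smul, map_smul, hε, h1, ← hc, smul_eq_mul, smul_eq_mul, mul_one, sub_self]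
  refine mem_iUnion.2 ⟨(k, ε), ⟨_, hy⟩, mem_univ _, ?_⟩
  change dist (f ((if ε then (1 : ℝ) else -1) • b k +
    (|c|⁻¹ • s - (if ε then (1 : ℝ) else -1) • b k))) q = D
  rw [add_sub_cancel, hh _ _ (inv_pos.2 hcp) hs]
  exact hsq

end

end Vale.Agent.P231.H649
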