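import Mathlib

/-!
# P231, type `OP²`: the Diophantine end of the level-two argument

`A g = 3/4 - (1023/1024) k` and `3 A = 255/64 - 9 k + (189/16) k² + 3 (1 + 4k) g` with rational
`A, g`, `24 k ∈ ℤ` and `6 + 72 k² ≥ 78` force `k = 1`.
-/

namespace Vale.Agent.P231.H649

/-- four times the square root candidate -/
def Fq (t M : ℤ) : ℤ := 21 * M ^ 2 - 192 * t * M + 1020 * t ^ 2

/-- `144 t⁴` times the discriminant at `k = M / (12 t)` -/
def Dq (t M : ℤ) : ℤ := (Fq t M) ^ 2 - 192 * t ^ 2 * (M + 3 * t) * (341 * M - 3072 * t)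

def qa (t m : ℤ) : ℤ := 42 * m - 65472 * t ^ 2
def qb (t m : ℤ) : ℤ := -384 * t * m + 393408 * t ^ 3
def qc (t m : ℤ) : ℤ := 2040 * t ^ 2 * m - m ^ 2 + 1769472 * t ^ 4

theorem Dq_sub (t M m : ℤ) :
    Dq t M - (Fq t M - m) ^ 2 = qa t m * M ^ 2 + qb t m * M + qc t m := by
  simp only [Dq, Fq, qa, qb, qc]; ring

/-- certificate that a quadratic polynomial is positive on `[a, b]` -/
def posOn (α β γ a b : ℤ) : Bool :=
  decide (0 < α * a ^ 2 + β * a + γ) && decide (0 < α * b ^ 2 + β * b + γ) &&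
    (decide (α ≤ 0) || decide (0 ≤ 2 * α * a + β) || decide (2 * α * b + β ≤ 0))

theorem concave_pos {α β γ a b x : ℤ} (hα : α ≤ 0) (h1 : 0 < α * a ^ 2 + β * a + γ)
    (h2 : 0 < α * b ^ 2 + β * b + γ) (hax : a ≤ x) (hxb : x ≤ b) :
    0 < α * x ^ 2 + β * x + γ := by
  rcases eq_or_lt_of_le hax with rfl | hax'
  · exact h1
  rcases eq_or_lt_of_le hxb with rfl | hxb'
  · exact h2
  have key : (b - a) * (α * x ^ 2 + β * x + γ) =
      (b - x) * (α * a ^ 2 + β * a + γ) + (x - a) * (α * b ^ 2 + β * b + γ)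
        - α * ((b - x) * (x - a) * (b - a)) := by ring
  have hpos : 0 < (b - a) * (α * x ^ 2 + β * x + γ) := by
    rw [key]
    have e1 : 0 < (b - x) * (α * a ^ 2 + β * a + γ) := mul_pos (by linarith) h1
    have e2 : 0 < (x - a) * (α * b ^ 2 + β * b + γ) := mul_pos (by linarith) h2
    have e3 : 0 ≤ (b - x) * (x - a) * (b - a) :=
      mul_nonneg (mul_nonneg (by linarith) (by linarith)) (by linarith)
    have e4 : α * ((b - x) * (x - a) * (b - a)) ≤ 0 := mul_nonpos_of_nonpos_of_nonneg hα e3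
    linarith
  exact (mul_pos_iff_of_pos_left (by linarith)).1 hpos

theorem posOn_spec {α β γ a b x : ℤ} (h : posOn α β γ a b = true) (hax : a ≤ x) (hxb : x ≤ b) :
    0 < α * x ^ 2 + β * x + γ := by
  simp only [posOn, Bool.and_eq_true, Bool.or_eq_true, decide_eq_true_eq] at h
  obtain ⟨⟨h1, h2⟩, h3⟩ := h
  by_cases hα : α ≤ 0
  · exact concave_pos hα h1 h2 hax hxb
  push Not at hα
  rcases h3 with (h3 | h3) | h3
  · exact absurd h3 (by omega)
  · have : α * x ^ 2 + β * x + γ = (α * a ^ 2 + β * a + γ) + (x - a) * (2 * α * a + β)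
        + α * (x - a) ^ 2 := by ring
    rw [this]
    have e1 : 0 ≤ (x - a) * (2 * α * a + β) := mul_nonneg (by linarith) h3
    have e2 : 0 ≤ α * (x - a) ^ 2 := mul_nonneg hα.le (sq_nonneg _)
    linarith
  · have : α * x ^ 2 + β * x + γ = (α * b ^ 2 + β * b + γ) + (b - x) * (-(2 * α * b + β))
        + α * (b - x) ^ 2 := by ring
    rw [this]
    have e1 : 0 ≤ (b - x) * (-(2 * α * b + β)) := mul_nonneg (by linarith) (by linarith)
    have e2 : 0 ≤ α * (b - x) ^ 2 := mul_nonneg hα.le (sq_nonneg _)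
    linarith

/-- no square between consecutive squares -/
theorem not_sq {D G : ℤ} (_ : 0 ≤ G) (h1 : 0 < D - G ^ 2) (h2 : 0 < (G + 1) ^ 2 - D) :
    ¬ IsSquare D := by
  rintro ⟨s, rfl⟩
  have h3 : G ^ 2 < |s| ^ 2 := by rw [sq_abs]; nlinarith
  have h4 : |s| ^ 2 < (G + 1) ^ 2 := by rw [sq_abs]; nlinarith
  have h5 : G < |s| := lt_of_pow_lt_pow_left₀ 2 (abs_nonneg s) h3
  have h6 : |s| < G + 1 := lt_of_pow_lt_pow_left₀ 2 (by linarith) h4
  omega

/-- one row of the table: on `[a, b]` the number `Dq t M` lies strictly between the squares of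
`Fq t M - m` and `Fq t M - m + 1` -/
def rowOk (t : ℤ) (r : ℤ × ℤ × ℤ) : Bool :=
  posOn (qa t r.2.2) (qb t r.2.2) (qc t r.2.2) r.1 r.2.1 &&
  posOn (-qa t (r.2.2 - 1)) (-qb t (r.2.2 - 1)) (-qc t (r.2.2 - 1)) r.1 r.2.1 &&
  posOn 21 (-192 * t) (1020 * t ^ 2 - r.2.2 + 1) r.1 r.2.1

theorem rowOk_spec {t : ℤ} {r : ℤ × ℤ × ℤ} (h : rowOk t r = true) {M : ℤ} (h1 : r.1 ≤ M)
    (h2 : M ≤ r.2.1) : ¬ IsSquare (Dq t M) := by
  simp only [rowOk, Bool.and_eq_true] at h
  obtain ⟨⟨p1, p2⟩, p3⟩ := h
  have q1 := posOn_spec p1 h1 h2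
  have q2 := posOn_spec p2 h1 h2
  have q3 := posOn_spec p3 h1 h2
  have e1 := Dq_sub t M r.2.2
  have e2 := Dq_sub t M (r.2.2 - 1)
  refine not_sq (G := Fq t M - r.2.2) ?_ ?_ ?_
  · simp only [Fq]; linarith
  · rw [e1]; exact q1
  · have : (Fq t M - r.2.2 + 1) = Fq t M - (r.2.2 - 1) := by ring
    rw [this]; linarith

/-- the table covers `[lo, hi]` -/
def cover (t : ℤ) : List (ℤ × ℤ × ℤ) → ℤ → ℤ → Bool
  | [], lo, hi => decide (hi < lo)
  | r :: l, lo, hi => decide (r.1 ≤ lo) && rowOk t r && cover t l (r.2.1 + 1) hi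

theorem cover_spec {t : ℤ} : ∀ {l : List (ℤ × ℤ × ℤ)} {lo hi : ℤ}, cover t l lo hi = true →
    ∀ {M : ℤ}, lo ≤ M → M ≤ hi → ¬ IsSquare (Dq t M)
  | [], lo, hi, h, M, h1, h2 => by
      simp only [cover, decide_eq_true_eq] at h
      omega
  | r :: l, lo, hi, h, M, h1, h2 => by
      simp only [cover, Bool.and_eq_true, decide_eq_true_eq] at h
      obtain ⟨⟨p1, p2⟩, p3⟩ := h
      rcases le_or_gt M r.2.1 with h3 | h3
      · exact rowOk_spec p2 (p1.trans h1) h3
      · exact cover_spec p3 (by omega) h2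

def tabPos0 : List (ℤ × ℤ × ℤ) := [
  (25, 25, 6534), (26, 26, 6928), (27, 27, 7085), (28, 28, 7147),
  (29, 29, 7170), (30, 30, 7175), (31, 31, 7171), (32, 32, 7162),
  (33, 33, 7150), (34, 34, 7136), (35, 35, 7121), (36, 36, 7105),
  (37, 37, 7090), (38, 38, 7074), (39, 39, 7059), (40, 40, 7044),
  (41, 41, 7030), (42, 42, 7015), (43, 43, 7001), (44, 44, 6988),
  (45, 45, 6974), (46, 46, 6962), (47, 47, 6949), (48, 48, 6937),
  (49, 49, 6925), (50, 50, 6914), (51, 51, 6903), (52, 52, 6892),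
  (53, 53, 6882), (54, 54, 6871), (55, 55, 6862), (56, 56, 6852),
  (57, 57, 6843), (58, 58, 6834), (59, 59, 6825), (60, 60, 6816),
  (61, 61, 6808), (62, 62, 6800), (63, 63, 6792), (64, 64, 6785),
  (65, 65, 6777), (66, 66, 6770), (67, 67, 6763), (68, 68, 6756),
  (69, 69, 6749), (70, 70, 6743), (71, 71, 6736), (72, 72, 6730),
  (73, 73, 6724), (74, 74, 6718), (75, 75, 6712), (76, 76, 6707),
  (77, 77, 6701), (78, 78, 6696), (79, 79, 6690), (80, 80, 6685),
  (81, 81, 6680), (82, 82, 6675), (83, 83, 6670), (84, 84, 6666)]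

theorem tabPos0_ok : cover 2 tabPos0 (25) (84) = true := by decide +kernel

def tabPos1 : List (ℤ × ℤ × ℤ) := [
  (85, 85, 6661), (86, 86, 6656), (87, 87, 6652), (88, 88, 6648),
  (89, 89, 6643), (90, 90, 6639), (91, 91, 6635), (92, 92, 6631),
  (93, 93, 6627), (94, 94, 6623), (95, 95, 6620), (96, 96, 6616),
  (97, 97, 6612), (98, 98, 6609), (99, 99, 6605), (100, 100, 6602),
  (101, 101, 6598), (102, 102, 6595), (103, 103, 6592), (104, 104, 6589),
  (105, 105, 6585), (106, 106, 6582), (107, 107, 6579), (108, 108, 6576),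
  (109, 109, 6573), (110, 110, 6571), (111, 111, 6568), (112, 112, 6565),
  (113, 113, 6562), (114, 114, 6560), (115, 115, 6557), (116, 116, 6554),
  (117, 117, 6552), (118, 118, 6549), (119, 119, 6547), (120, 120, 6544),
  (121, 121, 6542), (122, 122, 6540), (123, 123, 6537), (124, 124, 6535),
  (125, 125, 6533), (126, 126, 6530), (127, 127, 6528), (128, 128, 6526),
  (129, 129, 6524), (130, 130, 6522), (131, 131, 6520), (132, 132, 6518),
  (133, 133, 6516), (134, 134, 6514), (135, 135, 6512), (136, 136, 6510),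
  (137, 137, 6508), (138, 138, 6506), (139, 139, 6504), (140, 140, 6502),
  (141, 141, 6501), (142, 142, 6499), (143, 143, 6497), (144, 144, 6495)]

theorem tabPos1_ok : cover 2 tabPos1 (85) (144) = true := by decide +kernel

def tabPos2 : List (ℤ × ℤ × ℤ) := [
  (145, 145, 6494), (146, 146, 6492), (147, 147, 6490), (148, 148, 6489),
  (149, 149, 6487), (150, 150, 6485), (151, 151, 6484), (152, 152, 6482),
  (153, 153, 6481), (154, 154, 6479), (155, 155, 6478), (156, 156, 6476),
  (157, 157, 6475), (158, 158, 6473), (159, 159, 6472), (160, 160, 6471),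
  (161, 161, 6469), (162, 162, 6468), (163, 163, 6466), (164, 164, 6465),
  (165, 165, 6464), (166, 166, 6462), (167, 167, 6461), (168, 168, 6460),
  (169, 169, 6459), (170, 170, 6457), (171, 171, 6456), (172, 172, 6455),
  (173, 173, 6454), (174, 174, 6452), (175, 175, 6451), (176, 176, 6450),
  (177, 177, 6449), (178, 178, 6448), (179, 179, 6447), (180, 180, 6445),
  (181, 181, 6444), (182, 182, 6443), (183, 183, 6442), (184, 184, 6441),
  (185, 185, 6440), (186, 186, 6439), (187, 187, 6438), (188, 188, 6437),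
  (189, 189, 6436), (190, 190, 6435), (191, 191, 6434), (192, 192, 6433),
  (193, 193, 6432), (194, 194, 6431), (195, 195, 6430), (196, 196, 6429),
  (197, 197, 6428), (198, 198, 6427), (199, 199, 6426), (200, 200, 6425),
  (201, 201, 6424), (202, 202, 6423), (203, 204, 6422), (205, 205, 6421)]

theorem tabPos2_ok : cover 2 tabPos2 (145) (205) = true := by decide +kernel

def tabPos3 : List (ℤ × ℤ × ℤ) := [
  (206, 206, 6420), (207, 207, 6419), (208, 208, 6418), (209, 209, 6417),
  (210, 211, 6416), (212, 212, 6415), (213, 213, 6414), (214, 214, 6413),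
  (215, 216, 6412), (217, 217, 6411), (218, 218, 6410), (219, 219, 6409),
  (220, 221, 6408), (222, 222, 6407), (223, 223, 6406), (224, 225, 6405),
  (226, 226, 6404), (227, 228, 6403), (229, 229, 6402), (230, 230, 6401),
  (231, 232, 6400), (233, 233, 6399), (234, 235, 6398), (236, 236, 6397),
  (237, 238, 6396), (239, 239, 6395), (240, 241, 6394), (242, 243, 6393),
  (244, 244, 6392), (245, 246, 6391), (247, 248, 6390), (249, 249, 6389),
  (250, 251, 6388), (252, 253, 6387), (254, 254, 6386), (255, 256, 6385),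
  (257, 258, 6384), (259, 260, 6383), (261, 262, 6382), (263, 263, 6381),
  (264, 265, 6380), (266, 267, 6379), (268, 269, 6378), (270, 271, 6377),
  (272, 273, 6376), (274, 275, 6375), (276, 277, 6374), (278, 279, 6373),
  (280, 281, 6372), (282, 283, 6371), (284, 286, 6370), (287, 288, 6369),
  (289, 290, 6368), (291, 292, 6367), (293, 295, 6366), (296, 297, 6365),
  (298, 299, 6364), (300, 302, 6363), (303, 304, 6362), (305, 307, 6361)]

theorem tabPos3_ok : cover 2 tabPos3 (206) (307) = true := by decide +kernel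

def tabPos4 : List (ℤ × ℤ × ℤ) := [
  (308, 309, 6360), (310, 312, 6359), (313, 315, 6358), (316, 317, 6357),
  (318, 320, 6356), (321, 323, 6355), (324, 325, 6354), (326, 328, 6353),
  (329, 331, 6352), (332, 334, 6351), (335, 337, 6350), (338, 340, 6349),
  (341, 343, 6348), (344, 347, 6347), (348, 350, 6346), (351, 353, 6345),
  (354, 356, 6344), (357, 360, 6343), (361, 363, 6342), (364, 367, 6341),
  (368, 370, 6340), (371, 374, 6339), (375, 378, 6338), (379, 382, 6337),
  (383, 386, 6336), (387, 390, 6335), (391, 394, 6334), (395, 398, 6333),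
  (399, 402, 6332), (403, 406, 6331), (407, 411, 6330), (412, 415, 6329),
  (416, 420, 6328), (421, 425, 6327), (426, 429, 6326), (430, 434, 6325),
  (435, 439, 6324), (440, 445, 6323), (446, 450, 6322), (451, 455, 6321),
  (456, 461, 6320), (462, 466, 6319), (467, 472, 6318), (473, 478, 6317),
  (479, 484, 6316), (485, 491, 6315), (492, 497, 6314), (498, 504, 6313),
  (505, 510, 6312), (511, 517, 6311), (518, 524, 6310), (525, 532, 6309),
  (533, 539, 6308), (540, 547, 6307), (548, 555, 6306), (556, 563, 6305),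
  (564, 572, 6304), (573, 580, 6303), (581, 589, 6302), (590, 598, 6301)]

theorem tabPos4_ok : cover 2 tabPos4 (308) (598) = true := by decide +kernel

def tabPos5 : List (ℤ × ℤ × ℤ) := [
  (599, 608, 6300), (609, 618, 6299), (619, 628, 6298), (629, 638, 6297),
  (639, 649, 6296), (650, 660, 6295), (661, 672, 6294), (673, 684, 6293),
  (685, 696, 6292), (697, 709, 6291), (710, 723, 6290), (724, 737, 6289),
  (738, 751, 6288), (752, 766, 6287), (767, 782, 6286), (783, 798, 6285),
  (799, 815, 6284), (816, 832, 6283), (833, 851, 6282), (852, 870, 6281),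
  (871, 890, 6280), (891, 911, 6279), (912, 933, 6278), (934, 957, 6277),
  (958, 981, 6276), (982, 1006, 6275), (1007, 1033, 6274), (1034, 1062, 6273),
  (1063, 1092, 6272), (1093, 1124, 6271), (1125, 1157, 6270), (1158, 1193, 6269),
  (1194, 1231, 6268), (1232, 1272, 6267), (1273, 1315, 6266), (1316, 1361, 6265),
  (1362, 1411, 6264), (1412, 1464, 6263), (1465, 1522, 6262), (1523, 1584, 6261),
  (1585, 1651, 6260), (1652, 1725, 6259), (1726, 1805, 6258), (1806, 1893, 6257),
  (1894, 1990, 6256), (1991, 2098, 6255), (2099, 2218, 6254), (2219, 2352, 6253),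
  (2353, 2503, 6252), (2504, 2675, 6251), (2676, 2873, 6250), (2874, 3102, 6249),
  (3103, 3371, 6248), (3372, 3690, 6247), (3691, 4077, 6246), (4078, 4553, 6245),
  (4554, 5155, 6244), (5156, 5941, 6243), (5942, 7008, 6242), (7009, 8543, 6241)]

theorem tabPos5_ok : cover 2 tabPos5 (599) (8543) = true := by decide +kernel

def tabPos6 : List (ℤ × ℤ × ℤ) := [
  (8544, 10937, 6240), (10938, 15193, 6239), (15194, 24865, 6238), (24866, 68391, 6237)]

theorem tabPos6_ok : cover 2 tabPos6 (8544) (68391) = true := by decide +kernel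

def tabNeg0 : List (ℤ × ℤ × ℤ) := [
  (-91203, -27366, 6235), (-27365, -16100, 6234), (-16099, -11406, 6233), (-11405, -8832, 6232),
  (-8831, -7207, 6231), (-7206, -6087, 6230), (-6086, -5268, 6229), (-5267, -4644, 6228),
  (-4643, -4152, 6227), (-4151, -3755, 6226), (-3754, -3427, 6225), (-3426, -3151, 6224),
  (-3150, -2917, 6223), (-2916, -2716, 6222), (-2715, -2540, 6221), (-2539, -2386, 6220),
  (-2385, -2249, 6219), (-2248, -2128, 6218), (-2127, -2018, 6217), (-2017, -1920, 6216),
  (-1919, -1831, 6215), (-1830, -1749, 6214), (-1748, -1675, 6213), (-1674, -1607, 6212),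
  (-1606, -1544, 6211), (-1543, -1486, 6210), (-1485, -1432, 6209), (-1431, -1382, 6208),
  (-1381, -1335, 6207), (-1334, -1291, 6206), (-1290, -1250, 6205), (-1249, -1212, 6204),
  (-1211, -1176, 6203), (-1175, -1142, 6202), (-1141, -1110, 6201), (-1109, -1080, 6200),
  (-1079, -1051, 6199), (-1050, -1024, 6198), (-1023, -998, 6197), (-997, -973, 6196),
  (-972, -950, 6195), (-949, -928, 6194), (-927, -907, 6193), (-906, -886, 6192),
  (-885, -867, 6191), (-866, -849, 6190), (-848, -831, 6189), (-830, -814, 6188),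
  (-813, -797, 6187), (-796, -782, 6186), (-781, -767, 6185), (-766, -752, 6184),
  (-751, -738, 6183), (-737, -725, 6182), (-724, -712, 6181), (-711, -699, 6180),
  (-698, -687, 6179), (-686, -676, 6178), (-675, -664, 6177), (-663, -653, 6176)]

theorem tabNeg0_ok : cover 2 tabNeg0 (-91203) (-653) = true := by decide +kernel

def tabNeg1 : List (ℤ × ℤ × ℤ) := [
  (-652, -643, 6175), (-642, -633, 6174), (-632, -623, 6173), (-622, -613, 6172),
  (-612, -604, 6171), (-603, -595, 6170), (-594, -586, 6169), (-585, -578, 6168),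
  (-577, -570, 6167), (-569, -562, 6166), (-561, -554, 6165), (-553, -546, 6164),
  (-545, -539, 6163), (-538, -532, 6162), (-531, -525, 6161), (-524, -518, 6160),
  (-517, -511, 6159), (-510, -505, 6158), (-504, -499, 6157), (-498, -493, 6156),
  (-492, -487, 6155), (-486, -481, 6154), (-480, -475, 6153), (-474, -470, 6152),
  (-469, -464, 6151), (-463, -459, 6150), (-458, -454, 6149), (-453, -449, 6148),
  (-448, -444, 6147), (-443, -439, 6146), (-438, -434, 6145), (-433, -430, 6144),
  (-429, -425, 6143), (-424, -421, 6142), (-420, -416, 6141), (-415, -412, 6140),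
  (-411, -408, 6139), (-407, -404, 6138), (-403, -400, 6137), (-399, -396, 6136),
  (-395, -392, 6135), (-391, -388, 6134), (-387, -385, 6133), (-384, -381, 6132),
  (-380, -377, 6131), (-376, -374, 6130), (-373, -370, 6129), (-369, -367, 6128),
  (-366, -364, 6127), (-363, -361, 6126), (-360, -357, 6125), (-356, -354, 6124),
  (-353, -351, 6123), (-350, -348, 6122), (-347, -345, 6121), (-344, -342, 6120),
  (-341, -339, 6119), (-338, -337, 6118), (-336, -334, 6117), (-333, -331, 6116)]

theorem tabNeg1_ok : cover 2 tabNeg1 (-652) (-331) = true := by decide +kernel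

def tabNeg2 : List (ℤ × ℤ × ℤ) := [
  (-330, -328, 6115), (-327, -326, 6114), (-325, -323, 6113), (-322, -321, 6112),
  (-320, -318, 6111), (-317, -316, 6110), (-315, -313, 6109), (-312, -311, 6108),
  (-310, -309, 6107), (-308, -306, 6106), (-305, -304, 6105), (-303, -302, 6104),
  (-301, -300, 6103), (-299, -297, 6102), (-296, -295, 6101), (-294, -293, 6100),
  (-292, -291, 6099), (-290, -289, 6098), (-288, -287, 6097), (-286, -285, 6096),
  (-284, -283, 6095), (-282, -281, 6094), (-280, -279, 6093), (-278, -277, 6092),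
  (-276, -275, 6091), (-274, -274, 6090), (-273, -272, 6089), (-271, -270, 6088),
  (-269, -268, 6087), (-267, -266, 6086), (-265, -265, 6085), (-264, -263, 6084),
  (-262, -261, 6083), (-260, -260, 6082), (-259, -258, 6081), (-257, -256, 6080),
  (-255, -255, 6079), (-254, -253, 6078), (-252, -252, 6077), (-251, -250, 6076),
  (-249, -249, 6075), (-248, -247, 6074), (-246, -246, 6073), (-245, -244, 6072),
  (-243, -243, 6071), (-242, -241, 6070), (-240, -240, 6069), (-239, -239, 6068),
  (-238, -237, 6067), (-236, -236, 6066), (-235, -235, 6065), (-234, -233, 6064),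
  (-232, -232, 6063), (-231, -231, 6062), (-230, -229, 6061), (-228, -228, 6060),
  (-227, -227, 6059), (-226, -226, 6058), (-225, -224, 6057), (-223, -223, 6056)]

theorem tabNeg2_ok : cover 2 tabNeg2 (-330) (-223) = true := by decide +kernel

def tabNeg3 : List (ℤ × ℤ × ℤ) := [
  (-222, -222, 6055), (-221, -221, 6054), (-220, -220, 6053), (-219, -218, 6052),
  (-217, -217, 6051), (-216, -216, 6050), (-215, -215, 6049), (-214, -214, 6048),
  (-213, -213, 6047), (-212, -212, 6046), (-211, -211, 6045), (-210, -210, 6044),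
  (-209, -209, 6043), (-208, -208, 6042), (-207, -207, 6041), (-206, -206, 6040),
  (-205, -204, 6039), (-203, -203, 6038), (-202, -202, 6036), (-201, -201, 6035),
  (-200, -200, 6034), (-199, -199, 6033), (-198, -198, 6032), (-197, -197, 6031),
  (-196, -196, 6030), (-195, -195, 6029), (-194, -194, 6028), (-193, -193, 6027),
  (-192, -192, 6026), (-191, -191, 6025), (-190, -190, 6024), (-189, -189, 6022),
  (-188, -188, 6021), (-187, -187, 6020), (-186, -186, 6019), (-185, -185, 6018),
  (-184, -184, 6016), (-183, -183, 6015), (-182, -182, 6014), (-181, -181, 6013),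
  (-180, -180, 6011), (-179, -179, 6010), (-178, -178, 6009), (-177, -177, 6007),
  (-176, -176, 6006), (-175, -175, 6005), (-174, -174, 6003), (-173, -173, 6002),
  (-172, -172, 6001), (-171, -171, 5999), (-170, -170, 5998), (-169, -169, 5996),
  (-168, -168, 5995), (-167, -167, 5993), (-166, -166, 5992), (-165, -165, 5990),
  (-164, -164, 5989), (-163, -163, 5987), (-162, -162, 5985), (-161, -161, 5984)]

theorem tabNeg3_ok : cover 2 tabNeg3 (-222) (-161) = true := by decide +kernel

def tabNeg4 : List (ℤ × ℤ × ℤ) := [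
  (-160, -160, 5982), (-159, -159, 5981), (-158, -158, 5979), (-157, -157, 5977),
  (-156, -156, 5975), (-155, -155, 5974), (-154, -154, 5972), (-153, -153, 5970),
  (-152, -152, 5968), (-151, -151, 5966), (-150, -150, 5965), (-149, -149, 5963),
  (-148, -148, 5961), (-147, -147, 5959), (-146, -146, 5957), (-145, -145, 5955),
  (-144, -144, 5953), (-143, -143, 5951), (-142, -142, 5949), (-141, -141, 5947),
  (-140, -140, 5944), (-139, -139, 5942), (-138, -138, 5940), (-137, -137, 5938),
  (-136, -136, 5935), (-135, -135, 5933), (-134, -134, 5931), (-133, -133, 5928),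
  (-132, -132, 5926), (-131, -131, 5924), (-130, -130, 5921), (-129, -129, 5918),
  (-128, -128, 5916), (-127, -127, 5913), (-126, -126, 5911), (-125, -125, 5908),
  (-124, -124, 5905), (-123, -123, 5902), (-122, -122, 5899), (-121, -121, 5896),
  (-120, -120, 5894), (-119, -119, 5890), (-118, -118, 5887), (-117, -117, 5884),
  (-116, -116, 5881), (-115, -115, 5878), (-114, -114, 5875), (-113, -113, 5871),
  (-112, -112, 5868), (-111, -111, 5864), (-110, -110, 5861), (-109, -109, 5857),
  (-108, -108, 5853), (-107, -107, 5850), (-106, -106, 5846), (-105, -105, 5842),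
  (-104, -104, 5838), (-103, -103, 5834), (-102, -102, 5830), (-101, -101, 5825)]

theorem tabNeg4_ok : cover 2 tabNeg4 (-160) (-101) = true := by decide +kernel

def tabNeg5 : List (ℤ × ℤ × ℤ) := [
  (-100, -100, 5821), (-99, -99, 5817), (-98, -98, 5812), (-97, -97, 5808),
  (-96, -96, 5803), (-95, -95, 5798), (-94, -94, 5793), (-93, -93, 5788),
  (-92, -92, 5783), (-91, -91, 5778), (-90, -90, 5772), (-89, -89, 5767),
  (-88, -88, 5761), (-87, -87, 5755), (-86, -86, 5749), (-85, -85, 5743),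
  (-84, -84, 5737), (-83, -83, 5730), (-82, -82, 5724), (-81, -81, 5717),
  (-80, -80, 5710), (-79, -79, 5703), (-78, -78, 5696), (-77, -77, 5688),
  (-76, -76, 5681), (-75, -75, 5673), (-74, -74, 5664), (-73, -73, 5656),
  (-72, -72, 5647), (-71, -71, 5638), (-70, -70, 5629), (-69, -69, 5620),
  (-68, -68, 5610), (-67, -67, 5600), (-66, -66, 5590), (-65, -65, 5579),
  (-64, -64, 5568), (-63, -63, 5556), (-62, -62, 5544), (-61, -61, 5532),
  (-60, -60, 5519), (-59, -59, 5506), (-58, -58, 5492), (-57, -57, 5478),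
  (-56, -56, 5463), (-55, -55, 5448), (-54, -54, 5432), (-53, -53, 5416),
  (-52, -52, 5398), (-51, -51, 5380), (-50, -50, 5361), (-49, -49, 5342),
  (-48, -48, 5321), (-47, -47, 5300), (-46, -46, 5278), (-45, -45, 5254),
  (-44, -44, 5229), (-43, -43, 5203), (-42, -42, 5176), (-41, -41, 5147)]

theorem tabNeg5_ok : cover 2 tabNeg5 (-100) (-41) = true := by decide +kernel

def tabNeg6 : List (ℤ × ℤ × ℤ) := [
  (-40, -40, 5117), (-39, -39, 5085), (-38, -38, 5052), (-37, -37, 5016),
  (-36, -36, 4978), (-35, -35, 4938), (-34, -34, 4895), (-33, -33, 4850),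
  (-32, -32, 4801), (-31, -31, 4749), (-30, -30, 4694), (-29, -29, 4634),
  (-28, -28, 4570), (-27, -27, 4501), (-26, -26, 4426), (-25, -25, 4345),
  (-24, -24, 4258)]

theorem tabNeg6_ok : cover 2 tabNeg6 (-40) (-24) = true := by decide +kernel

theorem range_pos {M : ℤ} (h1 : 25 ≤ M) (h2 : M ≤ 68391) : ¬ IsSquare (Dq 2 M) := by
  rcases le_or_gt M (84) with h3 | h3
  · exact cover_spec tabPos0_ok (by omega) h3
  rcases le_or_gt M (144) with h3 | h3
  · exact cover_spec tabPos1_ok (by omega) h3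
  rcases le_or_gt M (205) with h3 | h3
  · exact cover_spec tabPos2_ok (by omega) h3
  rcases le_or_gt M (307) with h3 | h3
  · exact cover_spec tabPos3_ok (by omega) h3
  rcases le_or_gt M (598) with h3 | h3
  · exact cover_spec tabPos4_ok (by omega) h3
  rcases le_or_gt M (8543) with h3 | h3
  · exact cover_spec tabPos5_ok (by omega) h3
  exact cover_spec tabPos6_ok (by omega) h2

theorem range_neg {M : ℤ} (h1 : -91203 ≤ M) (h2 : M ≤ -24) : ¬ IsSquare (Dq 2 M) := by
  rcases le_or_gt M (-653) with h3 | h3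
  · exact cover_spec tabNeg0_ok (by omega) h3
  rcases le_or_gt M (-331) with h3 | h3
  · exact cover_spec tabNeg1_ok (by omega) h3
  rcases le_or_gt M (-223) with h3 | h3
  · exact cover_spec tabNeg2_ok (by omega) h3
  rcases le_or_gt M (-161) with h3 | h3
  · exact cover_spec tabNeg3_ok (by omega) h3
  rcases le_or_gt M (-101) with h3 | h3
  · exact cover_spec tabNeg4_ok (by omega) h3
  rcases le_or_gt M (-41) with h3 | h3
  · exact cover_spec tabNeg5_ok (by omega) h3
  exact cover_spec tabNeg6_ok (by omega) h2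

theorem tail_pos {M : ℤ} (h : 68392 ≤ M) : ¬ IsSquare (Dq 2 M) := by
  refine not_sq (G := Fq 2 M - 6236) ?_ ?_ ?_
  · simp only [Fq]; nlinarith
  · rw [Dq_sub]; simp only [qa, qb, qc]; nlinarith
  · have : (Fq 2 M - 6236 + 1) = Fq 2 M - 6235 := by ring
    rw [this]
    have := Dq_sub 2 M 6235
    simp only [qa, qb, qc] at this
    nlinarith

theorem tail_neg {M : ℤ} (h : M ≤ -91204) : ¬ IsSquare (Dq 2 M) := by
  refine not_sq (G := Fq 2 M - 6236) ?_ ?_ ?_
  · simp only [Fq]; nlinarith
  · rw [Dq_sub]; simp only [qa, qb, qc]; nlinarith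
  · have : (Fq 2 M - 6236 + 1) = Fq 2 M - 6235 := by ring
    rw [this]
    have := Dq_sub 2 M 6235
    simp only [qa, qb, qc] at this
    nlinarith

/-- for `|M| ≥ 24` the number `Dq 2 M` is a square only for `M = 24` -/
theorem eq_of_isSquare {M : ℤ} (hM : 24 ≤ |M|) (h : IsSquare (Dq 2 M)) : M = 24 := by
  by_contra hne
  rcases le_abs.1 hM with h1 | h1
  · have h2 : 25 ≤ M := by omega
    rcases le_or_gt M 68391 with h3 | h3
    · exact range_pos h2 h3 h
    · exact tail_pos (by omega) h
  · have h2 : M ≤ -24 := by omega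
    rcases le_or_gt (-91203) M with h3 | h3
    · exact range_neg h3 h2 h
    · exact tail_neg (by omega) h

/-- The Diophantine end: rational `A`, `g` with the two relations, `k = M / 24`, and
`k² ≥ 1` (`E = 6 + 72 k² ≥ 78`) force `k = 1`. -/
theorem level_two_end {A g k : ℚ} {M : ℤ} (hk : k = M / 24)
    (h1 : A * g = 3 / 4 - 1023 / 1024 * k)
    (h2 : 3 * A = 255 / 64 - 9 * k + 189 / 16 * k ^ 2 + 3 * (1 + 4 * k) * g)
    (hE : 78 ≤ 6 + 72 * k ^ 2) : k = 1 := by
  have hM : 24 ≤ |M| := by
    have hk1 : (1 : ℚ) ≤ k ^ 2 := by linarith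
    rw [hk] at hk1
    have : (24 : ℚ) ^ 2 ≤ (M : ℚ) ^ 2 := by
      have h3 : ((M : ℚ) / 24) ^ 2 = (M : ℚ) ^ 2 / 24 ^ 2 := by ring
      rw [h3] at hk1
      have := (one_le_div (by norm_num : (0 : ℚ) < 24 ^ 2)).1 hk1
      exact this
    have h4 : (24 : ℤ) ^ 2 ≤ M ^ 2 := by exact_mod_cast this
    have h5 := sq_le_sq.1 h4
    simpa using h5
  have hG : (8 * (1 + 4 * k) * (16 * g) + (252 * k ^ 2 - 192 * k + 85)) ^ 2 =
      (252 * k ^ 2 - 192 * k + 85) ^ 2 - 16 * (1 + 4 * k) * (1023 * k - 768) := by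
    have hA : A = (255 / 64 - 9 * k + 189 / 16 * k ^ 2 + 3 * (1 + 4 * k) * g) / 3 := by linarith
    rw [hA] at h1
    have h5 : 4 * (1 + 4 * k) * (16 * g) ^ 2 + (252 * k ^ 2 - 192 * k + 85) * (16 * g)
        + (1023 * k - 768) = 0 := by
      linear_combination 1024 * h1
    linear_combination 16 * (1 + 4 * k) * h5
  have hD : ((Dq 2 M : ℤ) : ℚ) = (48 * (8 * (1 + 4 * k) * (16 * g)
      + (252 * k ^ 2 - 192 * k + 85))) ^ 2 := by
    rw [mul_pow, hG, hk]
    simp only [Dq, Fq]
    push_cast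
    ring
  have hsq : IsSquare (Dq 2 M) := by
    have : IsSquare ((Dq 2 M : ℤ) : ℚ) := ⟨_, by rw [hD, sq]⟩
    exact_mod_cast this
  have := eq_of_isSquare hM hsq
  rw [hk, this]; norm_num

end Vale.Agent.P231.H649
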