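import Mathlib

/-!
# P231, S2-I: images of smooth maps with a kernel are null
-/

open MeasureTheory Module Set Filter Topology
open scoped ContDiff

namespace Vale.Agent.P231.H649

variable {V W : Type*} [NormedAddCommGroup V] [NormedSpace ℝ V] [FiniteDimensional ℝ V]
  [NormedAddCommGroup W] [NormedSpace ℝ W] [FiniteDimensional ℝ W]

theorem exists_surj (hVW : finrank ℝ V ≤ finrank ℝ W) :
    ∃ L : W →L[ℝ] V, Function.Surjective L := by
  let a : V ≃L[ℝ] (Fin (finrank ℝ V) → ℝ) := ContinuousLinearEquiv.ofFinrankEq (by simp)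
  let b : W ≃L[ℝ] (Fin (finrank ℝ W) → ℝ) := ContinuousLinearEquiv.ofFinrankEq (by simp)
  let p : (Fin (finrank ℝ W) → ℝ) →ₗ[ℝ] (Fin (finrank ℝ V) → ℝ) :=
    LinearMap.funLeft ℝ ℝ (Fin.castLE hVW)
  have hp : Function.Surjective p :=
    LinearMap.funLeft_surjective_of_injective _ _ _ (Fin.castLE_injective hVW)
  refine ⟨(a.symm : (Fin (finrank ℝ V) → ℝ) →L[ℝ] V) ∘L
    (LinearMap.toContinuousLinearMap p) ∘L (b : W →L[ℝ] (Fin (finrank ℝ W) → ℝ)), ?_⟩
  exact a.symm.surjective.comp (hp.comp b.surjective)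

/-- Sard for maps which have a kernel at every point of `T` -/
theorem sard_ker [MeasurableSpace W] [BorelSpace W] (μ : Measure W) [μ.IsAddHaarMeasure]
    {g : V → W} {T : Set V} (hVW : finrank ℝ V ≤ finrank ℝ W)
    (hg : ∀ s ∈ T, DifferentiableAt ℝ g s)
    (hk : ∀ s ∈ T, finrank ℝ V < finrank ℝ W ∨ ∃ z : V, z ≠ 0 ∧ fderiv ℝ g s z = 0) :
    μ (g '' T) = 0 := by
  obtain ⟨L, hL⟩ := exists_surj (V := V) (W := W) hVW
  have h1 : g '' T ⊆ (g ∘ L) '' (L ⁻¹' T) := by
    rintro _ ⟨s, hs, rfl⟩
    obtain ⟨y, rfl⟩ := hL s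
    exact ⟨y, hs, rfl⟩
  refine measure_mono_null h1 ?_
  refine addHaar_image_eq_zero_of_det_fderivWithin_eq_zero μ
    (f' := fun y => (fderiv ℝ g (L y)).comp L) (fun y hy => ?_) (fun y hy => ?_)
  · exact ((hg _ hy).hasFDerivAt.comp y L.hasFDerivAt).hasFDerivWithinAt
  · by_contra hdet
    have hinj : Function.Injective ((fderiv ℝ g (L y)).comp L) := by
      have h2 := ((fderiv ℝ g (L y)).comp L).toContinuousLinearEquivOfDetNeZero hdet
      have h3 : Function.Injective
          (((fderiv ℝ g (L y)).comp L).toContinuousLinearEquivOfDetNeZero hdet) :=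
        (((fderiv ℝ g (L y)).comp L).toContinuousLinearEquivOfDetNeZero hdet).injective
      intro a b hab
      exact h3 hab
    have hLi : Function.Injective L := fun a b hab => hinj (by
      change fderiv ℝ g (L y) (L a) = fderiv ℝ g (L y) (L b)
      rw [hab])
    rcases hk _ hy with h | ⟨z, hz, hz0⟩
    · have h4 := LinearMap.finrank_le_finrank_of_injective (f := (L : W →ₗ[ℝ] V)) hLi
      omega
    · obtain ⟨w, rfl⟩ := hL z
      apply hz
      have h5 : w = 0 := hinj (by
        change fderiv ℝ g (L y) (L w) = fderiv ℝ g (L y) (L 0)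
        rw [hz0, map_zero, map_zero])
      rw [h5, map_zero]

/-- a smooth map of a space of small dimension to the unit sphere misses a point -/
theorem exists_missed {X : Type*} [NormedAddCommGroup X] [NormedSpace ℝ X] [FiniteDimensional ℝ X]
    {f : X → W} (hf : Differentiable ℝ f) (hX : finrank ℝ X + 1 < finrank ℝ W) :
    ∃ a : W, a ≠ 0 ∧ ∀ (t : ℝ) (x : X), t • f x ≠ a := by
  borelize W
  let g : X × ℝ → W := fun p => p.2 • f p.1
  have h1 : Measure.addHaar (g '' univ) = 0 := by
    refine sard_ker (Measure.addHaar : Measure W) (g := g) (T := univ) ?_ (fun s _ => ?_)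
      (fun s _ => Or.inl ?_)
    · rw [finrank_prod, finrank_self]; omega
    · exact (differentiable_snd.smul (hf.comp differentiable_fst)) s
    · rw [finrank_prod, finrank_self]; omega
  have hW : 0 < finrank ℝ W := by omega
  have : Nontrivial W := Module.nontrivial_of_finrank_pos hW
  have h2 : (Measure.addHaar : Measure W) ({0}ᶜ : Set W) ≠ 0 :=
    (isOpen_compl_singleton.measure_pos _ (by
      obtain ⟨w, hw⟩ := exists_ne (0 : W)
      exact ⟨w, hw⟩)).ne'
  by_contra hcon
  push Not at hcon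
  apply h2
  refine measure_mono_null (fun a ha => ?_) h1
  obtain ⟨t, x, h3⟩ := hcon a ha
  exact ⟨(x, t), mem_univ _, h3⟩

end Vale.Agent.P231.H649
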