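import Mathlib

/-!
# P231, S2-I: transport of the range of a smooth family of projections along rays

`X × ℝ ∋ (x, t)`, `Q (x, t)` a smooth family of projections of `W`, homogeneous in `x`;
`A (x, t) = Q (x, t) Q (x, (N-1) t / N) ... Q (x, 0)`.
-/

open Module Set Filter Topology Metric
open scoped ContDiff

namespace Vale.Agent.P231.H649

variable {X W : Type*} [NormedAddCommGroup X] [NormedSpace ℝ X]
  [NormedAddCommGroup W] [NormedSpace ℝ W]

/-- the chain of projections -/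
noncomputable def chain (Q : X × ℝ → (W →L[ℝ] W)) (N : ℕ) : ℕ → X × ℝ → (W →L[ℝ] W)
  | 0, p => Q (p.1, 0)
  | k + 1, p => (Q (p.1, ((k + 1 : ℕ) : ℝ) / N * p.2)).comp (chain Q N k p)

theorem contDiffAt_chain {Q : X × ℝ → (W →L[ℝ] W)} {O : Set X}
    (hQ : ∀ p : X × ℝ, p.1 ∈ O → ContDiffAt ℝ ∞ Q p) (N k : ℕ) {p : X × ℝ} (hp : p.1 ∈ O) :
    ContDiffAt ℝ ∞ (chain Q N k) p := by
  induction k with
  | zero =>
    exact ContDiffAt.comp p (hQ (p.1, 0) hp) (contDiffAt_fst.prodMk contDiffAt_const)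
  | succ k ih =>
    have h1 : ContDiffAt ℝ ∞ (fun p : X × ℝ => Q (p.1, ((k + 1 : ℕ) : ℝ) / N * p.2)) p :=
      ContDiffAt.comp p (hQ (p.1, ((k + 1 : ℕ) : ℝ) / N * p.2) hp)
        (contDiffAt_fst.prodMk (contDiffAt_const.mul contDiffAt_snd))
    exact h1.clm_comp ih

theorem chain_proj {Q : X × ℝ → (W →L[ℝ] W)} (hp : ∀ p w, Q p (Q p w) = Q p w) {N : ℕ}
    (k : ℕ) (p : X × ℝ) (w : W) :
    Q (p.1, (k : ℝ) / N * p.2) (chain Q N k p w) = chain Q N k p w := by
  cases k with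
  | zero =>
    simp only [chain, Nat.cast_zero, zero_div, zero_mul]
    exact hp _ _
  | succ k =>
    simp only [chain, ContinuousLinearMap.comp_apply]
    exact hp _ _

theorem chain_proj' {Q : X × ℝ → (W →L[ℝ] W)} (hp : ∀ p w, Q p (Q p w) = Q p w) {N : ℕ}
    (hN : 0 < N) (p : X × ℝ) (w : W) : Q p (chain Q N N p w) = chain Q N N p w := by
  have h := chain_proj hp (N := N) N p w
  have hN' : (N : ℝ) ≠ 0 := by exact_mod_cast hN.ne'
  rw [div_self hN', one_mul] at h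
  exact h

theorem chain_hom {Q : X × ℝ → (W →L[ℝ] W)}
    (hh : ∀ (c : ℝ) (x : X) (t : ℝ), 0 < c → x ≠ 0 → Q (c • x, t) = Q (x, t)) (N k : ℕ)
    {c : ℝ} (hc : 0 < c) {x : X} (hx : x ≠ 0) (t : ℝ) :
    chain Q N k (c • x, t) = chain Q N k (x, t) := by
  induction k with
  | zero => exact hh c x 0 hc hx
  | succ k ih =>
    simp only [chain]
    rw [ih, hh c x _ hc hx]

theorem chain_zero {Q : X × ℝ → (W →L[ℝ] W)} (hp : ∀ p w, Q p (Q p w) = Q p w) (N k : ℕ) (x : X) :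
    chain Q N k (x, 0) = Q (x, 0) := by
  induction k with
  | zero => rfl
  | succ k ih =>
    simp only [chain, mul_zero]
    rw [ih]
    ext w
    exact hp _ _

/-- **Transport.** -/
theorem exists_transport [FiniteDimensional ℝ X] {Q : X × ℝ → (W →L[ℝ] W)}
    (hQ : ∀ p : X × ℝ, p.1 ≠ 0 → ContDiffAt ℝ ∞ Q p) (hp : ∀ p w, Q p (Q p w) = Q p w)
    (hh : ∀ (c : ℝ) (x : X) (t : ℝ), 0 < c → x ≠ 0 → Q (c • x, t) = Q (x, t)) :
    ∃ A : X × ℝ → (W →L[ℝ] W), (∀ p : X × ℝ, p.1 ≠ 0 → ContDiffAt ℝ ∞ A p) ∧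
      (∀ p w, Q p (A p w) = A p w) ∧
      (∀ (c : ℝ) (x : X) (t : ℝ), 0 < c → x ≠ 0 → A (c • x, t) = A (x, t)) ∧
      (∀ x, A (x, 0) = Q (x, 0)) ∧
      ∀ x t w, x ≠ 0 → t ∈ Icc (0 : ℝ) 1 → Q (x, 0) w = w → A (x, t) w = 0 → w = 0 := by
  -- uniform continuity
  let S : Set (X × ℝ) := sphere (0 : X) 1 ×ˢ Icc (0 : ℝ) 1
  have hS : IsCompact S := (isCompact_sphere _ _).prod isCompact_Icc
  have hne : ∀ p ∈ S, p.1 ≠ 0 := by
    rintro ⟨x, t⟩ ⟨hx, -⟩ h
    rw [mem_sphere_zero_iff_norm] at hx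
    simp only at h
    rw [h, norm_zero] at hx
    norm_num at hx
  have hcont : ContinuousOn Q S := fun p hp => (hQ p (hne p hp)).continuousAt.continuousWithinAt
  have hu := hS.uniformContinuousOn_of_continuous hcont
  rw [Metric.uniformContinuousOn_iff] at hu
  obtain ⟨δ, hδ, hδ'⟩ := hu 1 one_pos
  obtain ⟨N, hN⟩ := exists_nat_gt (1 / δ)
  have hN0 : 0 < (N : ℝ) := lt_trans (by positivity) hN
  have hN0' : 0 < N := by exact_mod_cast hN0
  have h1N : 1 / (N : ℝ) < δ := by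
    rw [div_lt_iff₀ hN0]
    rw [div_lt_iff₀ hδ] at hN
    linarith
  refine ⟨chain Q N N, fun p hp' => contDiffAt_chain (O := {x | x ≠ 0}) hQ N N hp',
    chain_proj' hp hN0', fun c x t hc hx => chain_hom hh N N hc hx t, chain_zero hp N N, ?_⟩
  -- injectivity
  have key : ∀ k ≤ N, ∀ x t w, x ≠ 0 → t ∈ Icc (0 : ℝ) 1 → Q (x, 0) w = w →
      chain Q N k (x, t) w = 0 → w = 0 := by
    intro k
    induction k with
    | zero =>
      intro _ x t w _ _ hw h0
      simp only [chain] at h0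
      rw [← hw, h0]
    | succ k ih =>
      intro hk x t w hx ht hw h0
      refine ih (by omega) x t w hx ht hw ?_
      by_contra hcon
      set z := chain Q N k (x, t) w with hz
      have hz1 : Q (x, (k : ℝ) / N * t) z = z := chain_proj hp k (x, t) w
      have hz2 : Q (x, ((k + 1 : ℕ) : ℝ) / N * t) z = 0 := h0
      have hxn : 0 < ‖x‖ := norm_pos_iff.2 hx
      have hx' : (‖x‖⁻¹) • x ∈ sphere (0 : X) 1 := by
        rw [mem_sphere_zero_iff_norm, norm_smul, norm_inv, norm_norm, inv_mul_cancel₀ hxn.ne']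
      have hmem : ∀ j : ℕ, j ≤ N → ((‖x‖⁻¹) • x, (j : ℝ) / N * t) ∈ S := by
        intro j hj
        refine ⟨hx', ?_, ?_⟩
        · have := ht.1
          simp only
          positivity
        · have h1 : (j : ℝ) / N ≤ 1 := by
            rw [div_le_one hN0]
            exact_mod_cast hj
          have h2 : 0 ≤ (j : ℝ) / N := by positivity
          simp only
          nlinarith [ht.1, ht.2]
      have hd : dist ((‖x‖⁻¹) • x, (k : ℝ) / N * t) ((‖x‖⁻¹) • x, ((k + 1 : ℕ) : ℝ) / N * t) < δ := by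
        rw [Prod.dist_eq, dist_self, max_eq_right dist_nonneg, Real.dist_eq]
        have h3 : (k : ℝ) / N * t - ((k + 1 : ℕ) : ℝ) / N * t = -(t / N) := by
          push_cast
          ring
        rw [h3, abs_neg, abs_of_nonneg (div_nonneg ht.1 hN0.le)]
        calc t / N ≤ 1 / N := by
              gcongr
              exact ht.2
          _ < δ := h1N
      have h4 := hδ' _ (hmem k (by omega)) _ (hmem (k + 1) hk) hd
      have e1 := hh (‖x‖⁻¹) x ((k : ℝ) / N * t) (by positivity) hx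
      have e2 := hh (‖x‖⁻¹) x (((k + 1 : ℕ) : ℝ) / N * t) (by positivity) hx
      rw [e1, e2, dist_eq_norm] at h4
      have h5 : ‖z‖ ≤ ‖Q (x, (k : ℝ) / N * t) - Q (x, ((k + 1 : ℕ) : ℝ) / N * t)‖ * ‖z‖ := by
        have h6 := (Q (x, (k : ℝ) / N * t) - Q (x, ((k + 1 : ℕ) : ℝ) / N * t)).le_opNorm z
        rw [sub_apply, hz1, hz2, sub_zero] at h6
        exact h6
      have hzn : 0 < ‖z‖ := norm_pos_iff.2 hcon
      nlinarith
  intro x t w hx ht hw h0
  exact key N le_rfl x t w hx ht hw h0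

end Vale.Agent.P231.H649
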